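import Vale.Agent.P050.H226.Sub2.Card

/-!
The number of edges of `spGraph s t g` when parts of length one are allowed.
-/

namespace Vale.Agent.P050.H692.Sub3

open Finset Vale.Agent.P050.H936 Vale.Agent.P050.H226.Sub2

variable {V E : Type} (s t : E → V) (g : E → SP)

theorem sp_key {e e' : E} (hee : e ≠ e') (a : V ⊕ (Σ e : E, (g e).In))
    (h5 : Sp (Sum.inl (s e')) (Sum.inl (t e')) (fun i => Sum.inr ⟨e', i⟩) a)
    (h6 : Sp (Sum.inl (s e)) (Sum.inl (t e)) (fun i => Sum.inr ⟨e, i⟩) a) :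
    a = Sum.inl (s e) ∨ a = Sum.inl (t e) := by
  rcases h6 with h6 | h6 | ⟨i, h6⟩
  · exact Or.inl h6
  · exact Or.inr h6
  · exfalso
    rcases h5 with h5 | h5 | ⟨j, h5⟩
    · rw [h5] at h6
      exact Sum.inl_ne_inr h6
    · rw [h5] at h6
      exact Sum.inl_ne_inr h6
    · rw [h5] at h6
      have := Sum.inr.inj h6
      exact hee (congrArg Sigma.fst this).symm

/-- two different pairs of terminals, or one part is long -/
def Apart : Prop := ∀ e e', e ≠ e' → 2 ≤ (g e).len ∨ 2 ≤ (g e').len ∨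
  ¬ ((s e = s e' ∧ t e = t e') ∨ (s e = t e' ∧ t e = s e'))

theorem ends_eq {α β : Type} (x y z w : α) (P P' : (α ⊕ β) × (α ⊕ β)) (hsy : sy P = sy P')
    (hne : P.1 ≠ P.2) (hx : P.1 = Sum.inl x ∨ P.1 = Sum.inl y)
    (hy : P.2 = Sum.inl x ∨ P.2 = Sum.inl y) (hz : P'.1 = Sum.inl z ∨ P'.1 = Sum.inl w)
    (hw : P'.2 = Sum.inl z ∨ P'.2 = Sum.inl w) : (x = z ∧ y = w) ∨ (x = w ∧ y = z) := by
  obtain ⟨p1, p2⟩ := P
  obtain ⟨q1, q2⟩ := P'
  have F : ∀ {p q : α ⊕ β} {x z : α}, p = Sum.inl x → p = q → q = Sum.inl z → x = z :=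
    fun a e b => Sum.inl.inj (a.symm.trans (e.trans b))
  have hq : q1 ≠ q2 := by
    rcases Sym2.eq_iff.1 hsy with ⟨e1, e2⟩ | ⟨e1, e2⟩
    · intro h0
      exact hne (e1.trans (h0.trans e2.symm))
    · intro h0
      exact hne (e1.trans (h0.symm.trans e2.symm))
  have hP : (p1 = Sum.inl x ∧ p2 = Sum.inl y) ∨ (p1 = Sum.inl y ∧ p2 = Sum.inl x) := by
    rcases hx with hx | hx
    · rcases hy with hy | hy
      · exact absurd (hx.trans hy.symm) hne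
      · exact Or.inl ⟨hx, hy⟩
    · rcases hy with hy | hy
      · exact Or.inr ⟨hx, hy⟩
      · exact absurd (hx.trans hy.symm) hne
  have hQ : (q1 = Sum.inl z ∧ q2 = Sum.inl w) ∨ (q1 = Sum.inl w ∧ q2 = Sum.inl z) := by
    rcases hz with hz | hz
    · rcases hw with hw | hw
      · exact absurd (hz.trans hw.symm) hq
      · exact Or.inl ⟨hz, hw⟩
    · rcases hw with hw | hw
      · exact Or.inr ⟨hz, hw⟩
      · exact absurd (hz.trans hw.symm) hq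
  rcases Sym2.eq_iff.1 hsy with ⟨e1, e2⟩ | ⟨e1, e2⟩
  · rcases hP with ⟨a1, a2⟩ | ⟨a1, a2⟩
    · rcases hQ with ⟨b1, b2⟩ | ⟨b1, b2⟩
      · exact Or.inl ⟨F a1 e1 b1, F a2 e2 b2⟩
      · exact Or.inr ⟨F a1 e1 b1, F a2 e2 b2⟩
    · rcases hQ with ⟨b1, b2⟩ | ⟨b1, b2⟩
      · exact Or.inr ⟨F a2 e2 b2, F a1 e1 b1⟩
      · exact Or.inl ⟨F a2 e2 b2, F a1 e1 b1⟩
  · rcases hP with ⟨a1, a2⟩ | ⟨a1, a2⟩
    · rcases hQ with ⟨b1, b2⟩ | ⟨b1, b2⟩
      · exact Or.inr ⟨F a1 e1 b2, F a2 e2 b1⟩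
      · exact Or.inl ⟨F a1 e1 b2, F a2 e2 b1⟩
    · rcases hQ with ⟨b1, b2⟩ | ⟨b1, b2⟩
      · exact Or.inl ⟨F a2 e2 b1, F a1 e1 b2⟩
      · exact Or.inr ⟨F a2 e2 b1, F a1 e1 b2⟩

theorem pq_inj4 (hs : ∀ e, s e ≠ t e) (hO : ∀ e, (g e).Ok) (hl : Apart s t g)
    (d d' : Σ e, Ed (g e)) (h : sy (pq s t g d) = sy (pq s t g d')) : d = d' := by
  obtain ⟨e, d⟩ := d
  obtain ⟨e', d'⟩ := d'
  by_cases hee : e = e'
  · subst hee
    rw [pr_inj (g e) _ _ _ (gd s t g hs e) (hO e) d d' h]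
  · exfalso
    obtain ⟨h1, h2⟩ := sy_mem h (pr_mem (g e') _ _ _ d').1 (pr_mem (g e') _ _ _ d').2
    obtain ⟨h3, h4⟩ := pr_mem (g e) (Sum.inl (s e) : V ⊕ (Σ e : E, (g e).In))
      (Sum.inl (t e)) (fun i => Sum.inr ⟨e, i⟩) d
    obtain ⟨h1', h2'⟩ := sy_mem h.symm (pr_mem (g e) _ _ _ d).1 (pr_mem (g e) _ _ _ d).2
    obtain ⟨h3', h4'⟩ := pr_mem (g e') (Sum.inl (s e') : V ⊕ (Σ e : E, (g e).In))
      (Sum.inl (t e')) (fun i => Sum.inr ⟨e', i⟩) d'
    have k1 := sp_key s t g hee _ h1 h3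
    have k2 := sp_key s t g hee _ h2 h4
    have k1' := sp_key s t g (Ne.symm hee) _ h1' h3'
    have k2' := sp_key s t g (Ne.symm hee) _ h2' h4'
    rcases hl e e' hee with h5 | h5 | h5
    · exact pr_len (g e) _ _ _ (gd s t g hs e) (hO e) h5 d ⟨k1, k2⟩
    · exact pr_len (g e') _ _ _ (gd s t g hs e') (hO e') h5 d' ⟨k1', k2'⟩
    · refine h5 ?_
      have n1 := pr_ne (g e) _ _ _ (gd s t g hs e) d
      exact ends_eq (s e) (t e) (s e') (t e') _ _ h n1 k1 k2 k1' k2'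

/-- the number of edges -/
theorem card4 {V E : Type} [Fintype V] [Fintype E] (s t : E → V) (g : E → SP)
    (hs : ∀ e, s e ≠ t e) (hO : ∀ e, (g e).Ok) (hl : Apart s t g) :
    Nat.card (spGraph s t g).edgeSet = ∑ e, (g e).size := by
  have hb : (Σ e, Ed (g e)) ≃ (spGraph s t g).edgeSet :=
    Equiv.ofBijective (fun d => ⟨sy (pq s t g d), by
      rw [sy, SimpleGraph.mem_edgeSet, adj_iff]
      exact ⟨pr_ne (g d.1) _ _ _ (gd s t g hs d.1) d.2, Or.inl ⟨d, rfl⟩⟩⟩) (by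
      constructor
      · intro d d' h
        exact pq_inj4 s t g hs hO hl d d' (congrArg Subtype.val h)
      · rintro ⟨e, he⟩
        induction e using Sym2.ind with
        | h a b =>
          rw [SimpleGraph.mem_edgeSet, adj_iff] at he
          rcases he.2 with ⟨d, hd⟩ | ⟨d, hd⟩
          · refine ⟨d, Subtype.ext ?_⟩
            show sy (pq s t g d) = s(a, b)
            rw [hd, sy]
          · refine ⟨d, Subtype.ext ?_⟩
            show sy (pq s t g d) = s(a, b)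
            rw [hd, sy]
            exact Sym2.eq_swap)
  rw [← Nat.card_congr hb, Nat.card_sigma]
  exact Finset.sum_congr rfl fun e _ => card_Ed (g e)

end Vale.Agent.P050.H692.Sub3
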