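import Vale.Agent.P050.H869.Sub.Core
import Vale.Agent.P050.H692.Sub.Ker2
import Vale.Agent.P050.H23.GI
import Vale.Agent.P050.Join.Copy

/-!
The star law: a centre together with some of the ends.
-/

set_option linter.unusedSectionVars false

namespace Vale.Agent.P050.H692.Sub3

open Finset Vale.Agent.P050.H148 Vale.Agent.P050.Cart Vale.Agent.P050.M18 Vale.Agent.P050.H546
  Vale.Agent.P050.H869 Vale.Agent.P050.H869.Sub Vale.Agent.P050.Join

variable {U : Type} [Fintype U] [DecidableEq U] {Q : U × U → ℝ}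
variable {V D : Type} [Fintype V] [DecidableEq V] [Fintype D] [DecidableEq D]

/-- the restriction of the star law -/
theorem mar_res (hE : Edge Q) (m : V → ℕ) (ι : D → V) (hι : Function.Injective ι)
    (x : U × (D → U)) :
    mar (SL Q m) (fun ω => (ω.1, fun d => ω.2 (ι d))) x = SL Q (fun d => m (ι d)) x := by
  classical
  obtain ⟨c, w⟩ := x
  have h1 := sum_star_prod (p := mm Q) (g := fun v => zp (nb Q) (m v)) c
    (fun v u => if ∀ d, ι d = v → u = w d then (1 : ℝ) else 0)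
  have h2 : mar (SL Q m) (fun ω => (ω.1, fun d => ω.2 (ι d))) (c, w) =
      ∑ z : V → U, M18.star (mm Q) (fun v => zp (nb Q) (m v)) (c, z) *
        ∏ v, (if ∀ d, ι d = v → z v = w d then (1 : ℝ) else 0) := by
    unfold mar SL
    rw [Fintype.sum_prod_type, Finset.sum_eq_single c]
    · refine Finset.sum_congr rfl fun z _ => ?_
      by_cases hz : (fun d => z (ι d)) = w
      · rw [if_pos (congrArg (Prod.mk c) hz), Finset.prod_eq_one, mul_one]
        intro v _
        refine if_pos fun d hd => ?_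
        rw [← hd]
        exact congrFun hz d
      · have hz' : ∃ d, z (ι d) ≠ w d := by
          by_contra hcon
          push Not at hcon
          exact hz (funext hcon)
        obtain ⟨d, hd⟩ := hz'
        rw [Finset.prod_eq_zero (mem_univ (ι d)) (if_neg fun h => hd (h d rfl)), mul_zero,
          if_neg]
        intro h
        exact hz (congrArg Prod.snd h)
    · intro c' _ hc'
      refine Finset.sum_eq_zero fun z _ => if_neg ?_
      intro h
      exact hc' (congrArg Prod.fst h)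
    · exact fun hn => absurd (mem_univ _) hn
  rw [h2, h1]
  show _ = mm Q c * ∏ d, zp (nb Q) (m (ι d)) c (w d)
  by_cases hc : mm Q c = 0
  · rw [hc, zero_mul, zero_mul]
  congr 1
  symm
  refine Fintype.prod_of_injective ι hι _ _ ?_ ?_
  · intro v hv
    have h3 : ∀ u, (if ∀ d, ι d = v → u = w d then (1 : ℝ) else 0) = 1 := fun u =>
      if_pos fun d hd => absurd ⟨d, hd⟩ hv
    simp_rw [h3, mul_one]
    exact zp_nb_one hE (m v) c hc
  · intro d
    rw [Finset.sum_eq_single (w d)]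
    · rw [if_pos, mul_one]
      intro d' hd'
      rw [hι hd']
    · intro u _ hu
      rw [if_neg, mul_zero]
      exact fun h => hu (h d rfl)
    · exact fun hn => absurd (mem_univ _) hn

/-- the entropy of the star law -/
theorem SL_ent_id (hE : Edge Q) (m : V → ℕ) :
    ent (SL Q m) (fun ω => ω) = aQ Q + ∑ w, (hh Q (m w) - aQ Q) := by
  have h1 := ent_star (SL_ok hE m)
  have h2 : ∀ w, ent (M18.star (mm Q) (fun v => zp (nb Q) (m v))) (fun x => (x.1, x.2 w)) =
      hh Q (m w) := fun w => SL_ent_one hE m w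
  simp_rw [h2] at h1
  exact h1

/-- one end and the centre -/
theorem SL_one' (hE : Edge Q) (m : V → ℕ) (v : V) (x : U × U) :
    mar (SL Q m) (fun ω => (ω.2 v, ω.1)) x = EE Q (m v) x := by
  obtain ⟨y, c⟩ := x
  have h1 := SL_one hE m v (c, y)
  have h2 : mar (SL Q m) (fun ω => (ω.2 v, ω.1)) (y, c) =
      mar (SL Q m) (fun ω => (ω.1, ω.2 v)) (c, y) := by
    unfold mar
    refine Finset.sum_congr rfl fun ω _ => ?_
    have h3 : (ω.2 v, ω.1) = (y, c) ↔ (ω.1, ω.2 v) = (c, y) := by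
      simp only [Prod.mk.injEq]
      exact and_comm
    by_cases h4 : (ω.1, ω.2 v) = (c, y)
    · rw [if_pos (h3.2 h4), if_pos h4]
    · rw [if_neg fun h5 => h4 (h3.1 h5), if_neg h4]
  rw [h2, h1]
  exact zp_nb_rev hE (m v) c y

/-- the entropy of one end -/
theorem SL_ent_end (hE : Edge Q) (m : V → ℕ) (v : V) :
    ent (SL Q m) (fun ω => ω.2 v) = aQ Q := by
  have h1 : ent (EE Q (m v)) (fun x => x.2) = aQ Q := by
    unfold aQ ent
    rw [mar_EE_snd hE (m v)]
    simp_rw [mar_id]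
  rw [← h1]
  refine ent_law fun c => ?_
  have h2 := mar_mar (SL Q m) (fun ω => (ω.1, ω.2 v)) (fun x => x.2) c
  rw [← h2]
  have h3 : mar (SL Q m) (fun ω => (ω.1, ω.2 v)) = EE Q (m v) := funext fun x => SL_one hE m v x
  rw [h3]

/-- the conditional entropy of the centre -/
theorem cen (hE : Edge Q) (m : V → ℕ) (ι : D → V) (hι : Function.Injective ι) :
    aQ Q + ∑ d, (hh Q (m (ι d)) - 2 * aQ Q) ≤
      ent (SL Q m) (fun ω => (ω.1, fun d => ω.2 (ι d))) -
        ent (SL Q m) (fun ω => fun d => ω.2 (ι d)) := by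
  have h1 : ent (SL Q m) (fun ω => (ω.1, fun d => ω.2 (ι d))) =
      aQ Q + ∑ d, (hh Q (m (ι d)) - aQ Q) := by
    rw [← SL_ent_id hE fun d => m (ι d)]
    refine ent_law fun x => ?_
    rw [mar_res hE m ι hι, mar_id]
  have h2 := ent_pi_le (star_nonneg (SL_ok hE m)) (star_total (SL_ok hE m))
    (fun ω => fun d => ω.2 (ι d))
  have h3 : ∀ d, ent (M18.star (mm Q) fun v => zp (nb Q) (m v)) (fun ω => ω.2 (ι d)) = aQ Q :=
    fun d => SL_ent_end hE m (ι d)
  simp only [h3] at h2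
  have h4 : ent (SL Q m) (fun ω => fun d => ω.2 (ι d)) ≤ ∑ _d : D, aQ Q := h2
  rw [h1]
  have h5 : ∑ d, (hh Q (m (ι d)) - 2 * aQ Q) = ∑ d, (hh Q (m (ι d)) - aQ Q) - ∑ _d : D, aQ Q := by
    rw [← Finset.sum_sub_distrib]
    exact Finset.sum_congr rfl fun d _ => by ring
  rw [h5]
  linarith

/-- the distinguished centre -/
theorem cen0 (hE : Edge Q) (m : V → ℕ) (ι : D → V) :
    aQ Q + ∑ v, (hh Q (m v) - aQ Q) ≤ ent (SL Q m) (fun ω => ω.2) +
      (ent (SL Q m) (fun ω => (ω.1, fun d => ω.2 (ι d))) -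
        ent (SL Q m) (fun ω => fun d => ω.2 (ι d))) := by
  have h1 := subm (star_nonneg (SL_ok hE m)) (A := fun ω => ω.2)
    (B := fun ω => (ω.1, fun d => ω.2 (ι d))) (C := fun ω => ω) (D := fun ω => fun d => ω.2 (ι d))
    (fun ω ω' hA hB => by
      simp only [Prod.mk.injEq] at hB
      exact Prod.ext hB.1 hA)
    (fun ω ω' hA => by rw [hA])
    (fun ω ω' hB => by
      simp only [Prod.mk.injEq] at hB
      exact hB.2)
  have h2 := SL_ent_id hE m
  unfold SL at h2 ⊢
  linarith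

/-- the weights at a centre -/
theorem cker (hE : Edge Q) (m : V → ℕ) (ι : D → V) (W : D → U → U → ℝ)
    (hW : ∀ d x y, 0 ≤ W d x y) (hs : ∀ d x, EE Q (m (ι d)) x ≠ 0 → W d x.1 x.2 ≠ 0) :
    (∀ ω, SL Q m ω ≠ 0 → ∑ y, ∏ d, W d (ω.2 (ι d)) y ≠ 0) ∧
    (ent (SL Q m) (fun ω => (ω.1, fun d => ω.2 (ι d))) -
        ent (SL Q m) (fun ω => fun d => ω.2 (ι d))) +
      ∑ d, ∑ x, EE Q (m (ι d)) x * Real.log (W d x.1 x.2) ≤
      ∑ ω, SL Q m ω * Real.log (∑ y, ∏ d, W d (ω.2 (ι d)) y) := by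
  classical
  have h0 : ∀ ω, 0 ≤ SL Q m ω := star_nonneg (SL_ok hE m)
  have hsd : ∀ ω, SL Q m ω ≠ 0 → ∀ d, W d (ω.2 (ι d)) ω.1 ≠ 0 := by
    intro ω hω d
    refine hs d (ω.2 (ι d), ω.1) ?_
    rw [← SL_one' hE m (ι d)]
    exact mar_ne_zero h0 (fun ω => (ω.2 (ι d), ω.1)) hω
  have key := ent_log_cond h0 (star_total (SL_ok hE m)) (fun ω => (ω.1, fun d => ω.2 (ι d)))
    (fun a : U × (D → U) => a.2) (fun a => ∏ d, W d (a.2 d) a.1)
    (fun b => ∑ y, ∏ d, W d (b d) y)
    (fun a => Finset.prod_nonneg fun d _ => hW d _ _) (fun b => by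
      unfold mar
      rw [Fintype.sum_prod_type]
      refine Finset.sum_congr rfl fun y _ => ?_
      symm
      rw [Finset.sum_eq_single b]
      · exact if_pos rfl
      · exact fun z _ hz => if_neg hz
      · exact fun hn => absurd (mem_univ _) hn)
    (fun ω hω => Finset.prod_ne_zero_iff.2 fun d _ => hsd ω hω d)
  obtain ⟨k1, k2⟩ := key
  refine ⟨k1, ?_⟩
  have e1 : ∑ ω, SL Q m ω * Real.log (∏ d, W d (ω.2 (ι d)) ω.1) =
      ∑ d, ∑ x, EE Q (m (ι d)) x * Real.log (W d x.1 x.2) := by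
    have h3 : ∀ ω, SL Q m ω * Real.log (∏ d, W d (ω.2 (ι d)) ω.1) =
        ∑ d, SL Q m ω * Real.log (W d (ω.2 (ι d)) ω.1) := by
      intro ω
      by_cases hω : SL Q m ω = 0
      · simp [hω]
      rw [← Finset.mul_sum]
      congr 1
      exact Real.log_prod fun d _ => hsd ω hω d
    rw [Finset.sum_congr rfl fun ω _ => h3 ω, Finset.sum_comm]
    refine Finset.sum_congr rfl fun d _ => ?_
    have h4 := sum_mar (SL Q m) (fun ω => (ω.2 (ι d), ω.1)) fun x => Real.log (W d x.1 x.2)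
    simp_rw [SL_one' hE m (ι d)] at h4
    exact h4.symm
  have k2' : ent (SL Q m) (fun ω => (ω.1, fun d => ω.2 (ι d))) +
      ∑ ω, SL Q m ω * Real.log (∏ d, W d (ω.2 (ι d)) ω.1) ≤
      ent (SL Q m) (fun ω => fun d => ω.2 (ι d)) +
        ∑ ω, SL Q m ω * Real.log (∑ y, ∏ d, W d (ω.2 (ι d)) y) := k2
  rw [e1] at k2'
  linarith

end Vale.Agent.P050.H692.Sub3
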