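import Vale.Agent.P050.H692.Sub3.Spec3
import Vale.Agent.P050.H692.Sub3.T3
import Vale.Agent.P050.H869.Sub.Star2

/-!
[E3] the entropy side.
-/

set_option linter.unusedSectionVars false

namespace Vale.Agent.P050.H692.Sub3

open Finset Vale.Agent.P050.H148 Vale.Agent.P050.Cart Vale.Agent.P050.M18 Vale.Agent.P050.H546
  Vale.Agent.P050.H936 Vale.Agent.P050.H869 Vale.Agent.P050.H869.Sub

variable {V C E D U : Type} [Fintype V] [DecidableEq V] [Fintype C] [DecidableEq C] [Fintype E]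
  [Fintype D] [DecidableEq D] [Fintype U] [DecidableEq U]

/-- the number of homomorphisms, the centres being summed out -/
theorem ng_sum (s t : E → V) (a : D → C) (b : D → V) (g : E → SP) (k : D → SP)
    (A : U → U → ℝ) : ng (fst (C := C) s b) (snd t a) (Sum.elim g k) A =
      ∑ x : V → U, (∏ e, (g e).wt A (x (s e)) (x (t e))) *
        ∏ c, ∑ y, ∏ d : {d // a d = c}, (k d.1).wt A (x (b d.1)) y := by
  classical
  unfold ng
  rw [← (Equiv.sumArrowEquivProdArrow V C U).symm.sum_comp, Fintype.sum_prod_type]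
  refine Finset.sum_congr rfl fun x _ => ?_
  have h1 : ∀ y : C → U, ∏ i : E ⊕ D, (Sum.elim g k i).wt A
      ((Equiv.sumArrowEquivProdArrow V C U).symm (x, y) (fst s b i))
      ((Equiv.sumArrowEquivProdArrow V C U).symm (x, y) (snd t a i)) =
      (∏ e, (g e).wt A (x (s e)) (x (t e))) *
        ∏ c, ∏ d : {d // a d = c}, (k d.1).wt A (x (b d.1)) (y c) := by
    intro y
    rw [Fintype.prod_sum_type]
    congr 1
    rw [← Fintype.prod_fiberwise a]
    refine Finset.prod_congr rfl fun c _ => Finset.prod_congr rfl fun d _ => ?_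
    show (k d.1).wt A (x (b d.1)) (y (a d.1)) = _
    rw [d.2]
  rw [Finset.sum_congr rfl fun y _ => h1 y, ← Finset.mul_sum]
  congr 1
  have h2 := Finset.prod_univ_sum (fun _ : C => (univ : Finset U))
    (fun c u => ∏ d : {d // a d = c}, (k d.1).wt A (x (b d.1)) u)
  rw [Fintype.piFinset_univ] at h2
  exact h2.symm

theorem sum_inj_ge (ι : D → V) (hι : Function.Injective ι) (f : V → ℝ) (G : ℝ)
    (hf : ∀ v, -G ≤ f v) :
    ∑ d, f (ι d) - ((Fintype.card V : ℝ) - Fintype.card D) * G ≤ ∑ v, f v := by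
  have h1 : ∑ v ∈ univ.image ι, f v = ∑ d, f (ι d) := Finset.sum_image fun x _ y _ h => hι h
  have h2 : ∑ v ∈ univ.image ι, f v + ∑ v ∈ (univ.image ι)ᶜ, f v = ∑ v, f v :=
    Finset.sum_add_sum_compl _ _
  have h3 := Finset.card_nsmul_le_sum ((univ.image ι)ᶜ) f (-G) fun v _ => hf v
  have h4 : (univ.image ι).card = Fintype.card D := by
    rw [Finset.card_image_of_injective _ hι, Finset.card_univ]
  rw [nsmul_eq_mul, Finset.card_compl, h4,
    Nat.cast_sub (Fintype.card_le_of_injective ι hι)] at h3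
  linarith

/-- [E3] -/
theorem ent3 : Ent3Stmt := by
  classical
  intro V C E D U _ _ _ _ _ _ _ _ _ s t a b hst hinj m μ hm g k hokg hokk hleng hlenk r hr A Q hE
    hA hQA
  rw [ng_sum]
  obtain ⟨-, -, hpair⟩ := star2 V U Q hE m μ hm
  have hS : H936.star2 Q m = SL Q m := rfl
  rw [hS] at hpair
  have hnn : ∀ ω, 0 ≤ SL Q m ω := star_nonneg (SL_ok hE m)
  have htot : ∑ ω, SL Q m ω = 1 := star_total (SL_ok hE m)
  have hle : ∀ l, hh Q l ≤ 2 * aQ Q := fun l => H23.hh_le hE l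
  have hmono : Monotone (hh Q) := monotone_nat_of_le_succ (H23.hh_mono hE)
  have hkg := fun e => H692.Sub.ker2 U A Q hE hA hQA μ (g e) (hokg e)
  have hkk := fun d => H692.Sub.ker2 U A Q hE hA hQA μ (k d) (hokk d)
  let Z : C → (V → U) → ℝ := fun c x => ∑ y, ∏ d : {d // a d = c}, (k d.1).wt A (x (b d.1)) y
  let w : (V → U) → ℝ := fun x => (∏ e, (g e).wt A (x (s e)) (x (t e))) * ∏ c, Z c x
  have hZ : ∀ c x, 0 ≤ Z c x := fun c x =>
    sum_nonneg fun y _ => prod_nonneg fun d _ => (hkk d.1).1 _ _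
  have hw : ∀ x, 0 ≤ w x := fun x =>
    mul_nonneg (prod_nonneg fun e _ => (hkg e).1 _ _) (prod_nonneg fun c _ => hZ c x)
  have hlaw : ∀ e, mar (SL Q m) (fun ω => (ω.2 (s e), ω.2 (t e))) = EE Q (g e).len := by
    intro e
    rw [hleng e]
    exact (hpair (s e) (t e) (hst e)).1
  have hse : ∀ ω, SL Q m ω ≠ 0 → ∀ e, (g e).wt A (ω.2 (s e)) (ω.2 (t e)) ≠ 0 := by
    intro ω h0 e
    refine (hkg e).2.1 (ω.2 (s e), ω.2 (t e)) ?_
    rw [← hlaw e]
    exact mar_ne_zero hnn (fun ω => (ω.2 (s e), ω.2 (t e))) h0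
  let ι : ∀ c, {d // a d = c} → V := fun c d => b d.1
  have hι : ∀ c, Function.Injective (ι c) := fun c d d' h =>
    Subtype.ext (hinj d.1 d'.1 (d.2.trans d'.2.symm) h)
  have hck := fun c => cker hE m (ι c) (fun d => (k d.1).wt A) (fun d => (hkk d.1).1)
    (fun d x hx => (hkk d.1).2.1 x (by rw [hlenk d.1]; exact hx))
  have hsc : ∀ ω, SL Q m ω ≠ 0 → ∀ c, Z c ω.2 ≠ 0 := fun ω h0 c => (hck c).1 ω h0
  have hs : ∀ ω, SL Q m ω ≠ 0 → w ω.2 ≠ 0 := fun ω h0 =>
    mul_ne_zero (prod_ne_zero_iff.2 fun e _ => hse ω h0 e)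
      (prod_ne_zero_iff.2 fun c _ => hsc ω h0 c)
  obtain ⟨hpos, key⟩ := ent_log_sum hnn htot (fun ω => ω.2) w hw hs
  refine ⟨hpos, ?_⟩
  have key' : ent (SL Q m) (fun ω => ω.2) + ∑ ω, SL Q m ω * Real.log (w ω.2) ≤
      Real.log (∑ x, w x) := key
  have hlog : ∑ ω, SL Q m ω * Real.log (w ω.2) = ∑ e, ∑ p, EE Q (g e).len p *
      Real.log ((g e).wt A p.1 p.2) + ∑ c, ∑ ω, SL Q m ω * Real.log (Z c ω.2) := by
    have e1 : ∀ ω, SL Q m ω * Real.log (w ω.2) = ∑ e, SL Q m ω *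
        Real.log ((g e).wt A (ω.2 (s e)) (ω.2 (t e))) + ∑ c, SL Q m ω * Real.log (Z c ω.2) := by
      intro ω
      by_cases h0 : SL Q m ω = 0
      · simp [h0]
      rw [← mul_sum, ← mul_sum, ← mul_add]
      congr 1
      show Real.log (_ * _) = _
      rw [Real.log_mul (prod_ne_zero_iff.2 fun e _ => hse ω h0 e)
        (prod_ne_zero_iff.2 fun c _ => hsc ω h0 c), Real.log_prod fun e _ => hse ω h0 e,
        Real.log_prod fun c _ => hsc ω h0 c]
    rw [sum_congr rfl fun ω _ => e1 ω, sum_add_distrib, sum_comm]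
    congr 1
    · refine sum_congr rfl fun e _ => ?_
      rw [← hlaw e]
      exact (sum_mar (SL Q m) (fun ω => (ω.2 (s e), ω.2 (t e)))
        (fun p => Real.log ((g e).wt A p.1 p.2))).symm
    · exact sum_comm
  -- the edges
  have hsumg : ∑ e, (((g e).size : ℝ) * hQ Q - (2 * ((g e).size : ℝ) - (g e).num - 2) * aQ Q -
      hh Q (g e).len + ((g e).gain μ : ℝ) * (2 * aQ Q - hh Q μ)) ≤
      ∑ e, ∑ p, EE Q (g e).len p * Real.log ((g e).wt A p.1 p.2) :=
    sum_le_sum fun e _ => (hkg e).2.2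
  -- the centres
  let T : C → ℝ := fun c => ent (SL Q m) (fun ω => (ω.1, fun d : {d // a d = c} => ω.2 (b d.1))) -
    ent (SL Q m) (fun ω => fun d : {d // a d = c} => ω.2 (b d.1))
  have hT : ∀ c, aQ Q + ∑ d : {d // a d = c}, (hh Q (m (b d.1)) - 2 * aQ Q) ≤ T c := fun c =>
    cen hE m (ι c) (hι c)
  let κ : D → ℝ := fun d => ((k d).size : ℝ) * hQ Q - (2 * ((k d).size : ℝ) - (k d).num - 2) * aQ Q -
      hh Q (m (b d)) + ((k d).gain μ : ℝ) * (2 * aQ Q - hh Q μ)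
  have hκ : ∀ d, κ d ≤ ∑ p, EE Q (m (b d)) p * Real.log ((k d).wt A p.1 p.2) := by
    intro d
    have h1 := (hkk d).2.2
    rw [hlenk d] at h1
    exact h1
  have hsumc : ∑ c, T c + ∑ d, κ d ≤ ∑ c, ∑ ω, SL Q m ω * Real.log (Z c ω.2) := by
    have h1 : ∀ c, T c + ∑ d : {d // a d = c}, κ d.1 ≤ ∑ ω, SL Q m ω * Real.log (Z c ω.2) := by
      intro c
      have h2 := (hck c).2
      have h3 : ∑ d : {d // a d = c}, κ d.1 ≤ ∑ d : {d // a d = c}, ∑ x, EE Q (m (ι c d)) x *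
          Real.log ((k d.1).wt A x.1 x.2) := sum_le_sum fun d _ => hκ d.1
      have h4 : T c + ∑ d : {d // a d = c}, ∑ x, EE Q (m (ι c d)) x *
          Real.log ((k d.1).wt A x.1 x.2) ≤ ∑ ω, SL Q m ω * Real.log (Z c ω.2) := h2
      linarith
    have h5 := sum_le_sum fun c (_ : c ∈ (univ : Finset C)) => h1 c
    rw [sum_add_distrib, Fintype.sum_fiberwise a] at h5
    exact h5
  -- numbers
  have e2 : ∑ e, (((g e).size : ℝ) * hQ Q - (2 * ((g e).size : ℝ) - (g e).num - 2) * aQ Q -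
      hh Q (g e).len + ((g e).gain μ : ℝ) * (2 * aQ Q - hh Q μ)) =
      (∑ e, ((g e).size : ℝ)) * hQ Q -
      (2 * ∑ e, ((g e).size : ℝ) - ∑ e, ((g e).num : ℝ) - 2 * Fintype.card E) * aQ Q -
      ∑ e, hh Q (g e).len + (∑ e, ((g e).gain μ : ℝ)) * (2 * aQ Q - hh Q μ) := by
    simp only [sum_add_distrib, sum_sub_distrib, ← sum_mul, ← mul_sum, sum_const, card_univ,
      nsmul_eq_mul]
    ring
  have e2' : ∑ d, κ d = (∑ d, ((k d).size : ℝ)) * hQ Q -
      (2 * ∑ d, ((k d).size : ℝ) - ∑ d, ((k d).num : ℝ) - 2 * Fintype.card D) * aQ Q -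
      ∑ d, hh Q (m (b d)) + (∑ d, ((k d).gain μ : ℝ)) * (2 * aQ Q - hh Q μ) := by
    simp only [κ, sum_add_distrib, sum_sub_distrib, ← sum_mul, ← mul_sum, sum_const, card_univ,
      nsmul_eq_mul]
    ring
  have e3 : (∑ e, (2 * ((g e).size : ℝ) - ((g e).num : ℝ))) =
      2 * ∑ e, ((g e).size : ℝ) - ∑ e, ((g e).num : ℝ) := by
    simp only [sum_sub_distrib, ← mul_sum]
  have e3' : (∑ d, (2 * ((k d).size : ℝ) - ((k d).num : ℝ))) =
      2 * ∑ d, ((k d).size : ℝ) - ∑ d, ((k d).num : ℝ) := by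
    simp only [sum_sub_distrib, ← mul_sum]
  have e4 : ∑ d, (hh Q (m (b d)) - 2 * aQ Q) = ∑ d, hh Q (m (b d)) -
      2 * Fintype.card D * aQ Q := by
    simp only [sum_sub_distrib, sum_const, card_univ, nsmul_eq_mul]
    ring
  rw [e2] at hsumg
  rw [e2'] at hsumc
  rw [e3, e3']
  rw [hlog] at key'
  rcases hr with ⟨⟨e0⟩, rfl⟩ | ⟨d0, rfl⟩
  · -- an edge
    have hent := (hpair (s e0) (t e0) (hst e0)).2
    have hhe : ∑ e, hh Q (g e).len ≤ hh Q (m (s e0) + m (t e0)) +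
        ((Fintype.card E : ℝ) - 1) * (2 * aQ Q) := by
      rw [← Finset.add_sum_erase univ _ (mem_univ e0), hleng e0]
      have h4 : ∑ e ∈ univ.erase e0, hh Q (g e).len ≤
          ∑ _e ∈ univ.erase e0, 2 * aQ Q := sum_le_sum fun e _ => hle _
      rw [sum_const, nsmul_eq_mul, card_erase_of_mem (mem_univ e0), card_univ,
        Nat.cast_sub (Fintype.card_pos_iff.2 ⟨e0⟩), Nat.cast_one] at h4
      linarith
    have hTs : Fintype.card C * aQ Q + ∑ d, (hh Q (m (b d)) - 2 * aQ Q) ≤ ∑ c, T c := by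
      have h5 := sum_le_sum fun c (_ : c ∈ (univ : Finset C)) => hT c
      rw [sum_add_distrib, sum_const, nsmul_eq_mul, card_univ,
        Fintype.sum_fiberwise a (fun d => hh Q (m (b d)) - 2 * aQ Q)] at h5
      exact h5
    rw [e4] at hTs
    have key2 : Real.log (∑ x, w x) = Real.log (∑ x : V → U, (∏ e, (g e).wt A (x (s e)) (x (t e))) *
        ∏ c, ∑ y, ∏ d : {d // a d = c}, (k d.1).wt A (x (b d.1)) y) := rfl
    rw [← key2]
    push_cast
    nlinarith [key', hsumg, hsumc, hhe, hent, hTs]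
  · -- a centre
    have hhe : ∑ e, hh Q (g e).len ≤ (Fintype.card E : ℝ) * (2 * aQ Q) := by
      have h4 : ∑ e, hh Q (g e).len ≤ ∑ _e : E, 2 * aQ Q := sum_le_sum fun e _ => hle _
      rw [sum_const, nsmul_eq_mul, card_univ] at h4
      exact h4
    have h0 : aQ Q + ∑ v, (hh Q (m v) - aQ Q) ≤ ent (SL Q m) (fun ω => ω.2) + T (a d0) :=
      cen0 hE m (ι (a d0))
    have hTs : (Fintype.card C - 1) * aQ Q + ∑ d, (hh Q (m (b d)) - 2 * aQ Q) -
        ∑ d : {d // a d = a d0}, (hh Q (m (b d.1)) - 2 * aQ Q) + T (a d0) ≤ ∑ c, T c := by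
      rw [← Finset.add_sum_erase univ T (mem_univ (a d0)),
        ← Fintype.sum_fiberwise a (fun d => hh Q (m (b d)) - 2 * aQ Q),
        ← Finset.add_sum_erase univ (fun c => ∑ d : {d // a d = c}, (hh Q (m (b d.1)) - 2 * aQ Q))
          (mem_univ (a d0))]
      have h5 := sum_le_sum fun c (_ : c ∈ (univ : Finset C).erase (a d0)) => hT c
      rw [sum_add_distrib, sum_const, nsmul_eq_mul, card_erase_of_mem (mem_univ _), card_univ,
        Nat.cast_sub (Fintype.card_pos_iff.2 ⟨a d0⟩), Nat.cast_one] at h5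
      linarith
    have h6 := sum_inj_ge (ι (a d0)) (hι (a d0)) (fun v => hh Q (m v) - 2 * aQ Q)
      (2 * aQ Q - hh Q μ) (fun v => by
        have h7 : hh Q μ ≤ hh Q (m v) := hmono (hm v)
        linarith)
    have h6' : ∑ d : {d // a d = a d0}, (hh Q (m (b d.1)) - 2 * aQ Q) -
        ((Fintype.card V : ℝ) - Fintype.card {d // a d = a d0}) * (2 * aQ Q - hh Q μ) ≤
        ∑ v, (hh Q (m v) - 2 * aQ Q) := h6
    have h8 : ∑ v, (hh Q (m v) - 2 * aQ Q) = ∑ v, (hh Q (m v) - aQ Q) -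
        Fintype.card V * aQ Q := by
      simp only [sum_sub_distrib, sum_const, card_univ, nsmul_eq_mul]
      ring
    rw [e4] at hTs
    rw [h8] at h6'
    have key2 : Real.log (∑ x, w x) = Real.log (∑ x : V → U, (∏ e, (g e).wt A (x (s e)) (x (t e))) *
        ∏ c, ∑ y, ∏ d : {d // a d = c}, (k d.1).wt A (x (b d.1)) y) := rfl
    rw [← key2]
    nlinarith [key', hsumg, hsumc, hhe, h0, hTs, h6']

end Vale.Agent.P050.H692.Sub3
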