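import Vale.Agent.P050.H692.Sub3.E4

/-!
Short legs at a centre.
-/

set_option linter.unusedSectionVars false

namespace Vale.Agent.P050.H692.Sub3

open Finset Vale.Agent.P050.H148 Vale.Agent.P050.Cart Vale.Agent.P050.M18 Vale.Agent.P050.H546
  Vale.Agent.P050.H869 Vale.Agent.P050.H869.Sub Vale.Agent.P050.Join

variable {U : Type} [Fintype U] [DecidableEq U] {Q : U × U → ℝ}
variable {V D : Type} [Fintype V] [DecidableEq V] [Fintype D] [DecidableEq D]

/-- the entropy of the ends of the legs -/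
theorem ends_le (hE : Edge Q) (m : V → ℕ) (ι : D → V) (hι : Function.Injective ι) (μ : ℕ) :
    ent (SL Q m) (fun ω => fun d => ω.2 (ι d)) +
      (((univ.filter fun d => 2 * m (ι d) ≤ μ).card - 1 : ℕ) : ℝ) * (2 * aQ Q - hh Q μ) ≤
      Fintype.card D * aQ Q := by
  classical
  have h0 : ∀ ω, 0 ≤ SL Q m ω := star_nonneg (SL_ok hE m)
  have htot : ∑ ω, SL Q m ω = 1 := star_total (SL_ok hE m)
  have hG : 0 ≤ 2 * aQ Q - hh Q μ := by linarith [H23.hh_le hE μ]
  have hmono : Monotone (hh Q) := monotone_nat_of_le_succ (H23.hh_mono hE)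
  rcases (univ.filter fun d => 2 * m (ι d) ≤ μ).eq_empty_or_nonempty with hq | ⟨d₀, hd₀⟩
  · rw [hq]
    have h2 := ent_pi_le h0 htot (fun ω => fun d => ω.2 (ι d))
    have h3 : ∀ d, ent (SL Q m) (fun ω => ω.2 (ι d)) = aQ Q := fun d => SL_ent_end hE m (ι d)
    simp only [h3, Finset.sum_const, Finset.card_univ, nsmul_eq_mul] at h2
    simp only [Finset.card_empty, Nat.zero_sub, Nat.cast_zero, zero_mul, add_zero]
    exact h2
  · have hd₀' : 2 * m (ι d₀) ≤ μ := (Finset.mem_filter.1 hd₀).2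
    have h1 := ent_chain h0 htot (fun ω => ω.2 (ι d₀)) (fun ω => fun d => ω.2 (ι d))
      (fun d (u : U) => if 2 * m (ι d) ≤ μ then some u else none)
    have h2 : ent (SL Q m) (fun ω => fun d => ω.2 (ι d)) ≤
        ent (SL Q m) (fun ω => (ω.2 (ι d₀), fun d => ω.2 (ι d))) :=
      ent_mono h0 fun ω ω' h => (Prod.ext_iff.1 h).2
    have h3 : ∀ d, ent (SL Q m) (fun ω => ω.2 (ι d)) = aQ Q := fun d => SL_ent_end hE m (ι d)
    -- the terms
    have hgood : ∀ d, 2 * m (ι d) ≤ μ → ent (SL Q m) (fun ω =>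
        ((if 2 * m (ι d) ≤ μ then some (ω.2 (ι d₀)) else none : Option U), ω.2 (ι d))) =
        ent (SL Q m) (fun ω => (ω.2 (ι d₀), ω.2 (ι d))) := by
      intro d hd
      simp only [hd, if_true]
      refine ent_same _ fun ω ω' => ?_
      simp only [Prod.mk.injEq, Option.some.injEq]
    have hgood' : ∀ d, 2 * m (ι d) ≤ μ → ent (SL Q m) (fun ω =>
        (if 2 * m (ι d) ≤ μ then some (ω.2 (ι d₀)) else none : Option U)) = aQ Q := by
      intro d hd
      simp only [hd, if_true]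
      rw [← h3 d₀]
      refine ent_same _ fun ω ω' => ?_
      simp only [Option.some.injEq]
    have hbad : ∀ d, ¬ 2 * m (ι d) ≤ μ → ent (SL Q m) (fun ω =>
        ((if 2 * m (ι d) ≤ μ then some (ω.2 (ι d₀)) else none : Option U), ω.2 (ι d))) =
        aQ Q := by
      intro d hd
      simp only [hd, if_false]
      rw [← h3 d]
      refine ent_same _ fun ω ω' => ?_
      simp only [Prod.mk.injEq, true_and]
    have hbad' : ∀ d, ¬ 2 * m (ι d) ≤ μ → 0 ≤ ent (SL Q m) (fun ω =>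
        (if 2 * m (ι d) ≤ μ then some (ω.2 (ι d₀)) else none : Option U)) := by
      intro d hd
      simp only [hd, if_false]
      have e1 : mar (SL Q m) (fun _ => (none : Option U)) none = 1 := by
        unfold mar
        simp [htot]
      rw [ent_eq]
      simp [e1]
    have hterm : ∀ d, d ≠ d₀ → ent (SL Q m) (fun ω =>
        ((if 2 * m (ι d) ≤ μ then some (ω.2 (ι d₀)) else none : Option U), ω.2 (ι d))) -
        ent (SL Q m) (fun ω =>
        (if 2 * m (ι d) ≤ μ then some (ω.2 (ι d₀)) else none : Option U)) ≤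
        aQ Q - (if 2 * m (ι d) ≤ μ then (2 * aQ Q - hh Q μ) else 0) := by
      intro d hdd
      by_cases hd : 2 * m (ι d) ≤ μ
      · rw [hgood d hd, hgood' d hd, if_pos hd]
        have h5 := SL_ent_two hE m (u := ι d₀) (v := ι d) fun h => hdd (hι h).symm
        rw [h5]
        have h6 : hh Q (m (ι d₀) + m (ι d)) ≤ hh Q μ := hmono (by omega)
        linarith
      · rw [hbad d hd, if_neg hd]
        linarith [hbad' d hd]
    have hterm0 : ent (SL Q m) (fun ω =>
        ((if 2 * m (ι d₀) ≤ μ then some (ω.2 (ι d₀)) else none : Option U), ω.2 (ι d₀))) -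
        ent (SL Q m) (fun ω =>
        (if 2 * m (ι d₀) ≤ μ then some (ω.2 (ι d₀)) else none : Option U)) = 0 := by
      rw [hgood d₀ hd₀', hgood' d₀ hd₀', ← h3 d₀]
      rw [sub_eq_zero]
      refine ent_same _ fun ω ω' => ?_
      simp only [Prod.mk.injEq, and_self]
    have h4 : ent (SL Q m) (fun ω => (ω.2 (ι d₀), fun d => ω.2 (ι d))) ≤
        ent (SL Q m) (fun ω => ω.2 (ι d₀)) + ∑ d, (ent (SL Q m) (fun ω =>
        ((if 2 * m (ι d) ≤ μ then some (ω.2 (ι d₀)) else none : Option U), ω.2 (ι d))) -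
        ent (SL Q m) (fun ω =>
        (if 2 * m (ι d) ≤ μ then some (ω.2 (ι d₀)) else none : Option U))) := h1
    rw [← Finset.add_sum_erase univ _ (mem_univ d₀), hterm0, h3 d₀] at h4
    have h5 : ∑ d ∈ univ.erase d₀, (ent (SL Q m) (fun ω =>
        ((if 2 * m (ι d) ≤ μ then some (ω.2 (ι d₀)) else none : Option U), ω.2 (ι d))) -
        ent (SL Q m) (fun ω =>
        (if 2 * m (ι d) ≤ μ then some (ω.2 (ι d₀)) else none : Option U))) ≤
        ∑ d ∈ univ.erase d₀, (aQ Q - (if 2 * m (ι d) ≤ μ then (2 * aQ Q - hh Q μ) else 0)) :=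
      Finset.sum_le_sum fun d hd => hterm d (Finset.mem_erase.1 hd).1
    have h6 : ∑ d, (aQ Q - (if 2 * m (ι d) ≤ μ then (2 * aQ Q - hh Q μ) else 0)) =
        Fintype.card D * aQ Q -
          ((univ.filter fun d => 2 * m (ι d) ≤ μ).card : ℝ) * (2 * aQ Q - hh Q μ) := by
      rw [Finset.sum_sub_distrib, Finset.sum_const, Finset.card_univ, nsmul_eq_mul,
        ← Finset.sum_filter, Finset.sum_const, nsmul_eq_mul]
    rw [← Finset.add_sum_erase univ _ (mem_univ d₀), if_pos hd₀'] at h6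
    have h7 : 1 ≤ (univ.filter fun d => 2 * m (ι d) ≤ μ).card := Finset.card_pos.2 ⟨d₀, hd₀⟩
    rw [Nat.cast_sub h7, Nat.cast_one]
    linarith

/-- the conditional entropy of the centre -/
theorem cen5 (hE : Edge Q) (m : V → ℕ) (ι : D → V) (hι : Function.Injective ι) (μ : ℕ) :
    aQ Q + ∑ d, (hh Q (m (ι d)) - 2 * aQ Q) +
      (((univ.filter fun d => 2 * m (ι d) ≤ μ).card - 1 : ℕ) : ℝ) * (2 * aQ Q - hh Q μ) ≤
      ent (SL Q m) (fun ω => (ω.1, fun d => ω.2 (ι d))) -
        ent (SL Q m) (fun ω => fun d => ω.2 (ι d)) := by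
  have h1 : ent (SL Q m) (fun ω => (ω.1, fun d => ω.2 (ι d))) =
      aQ Q + ∑ d, (hh Q (m (ι d)) - aQ Q) := by
    rw [← SL_ent_id hE fun d => m (ι d)]
    refine ent_law fun x => ?_
    rw [mar_res hE m ι hι, mar_id]
  have h4 := ends_le hE m ι hι μ
  rw [h1]
  have h5 : ∑ d, (hh Q (m (ι d)) - 2 * aQ Q) = ∑ d, (hh Q (m (ι d)) - aQ Q) -
      Fintype.card D * aQ Q := by
    rw [← nsmul_eq_mul, ← Finset.card_univ, ← Finset.sum_const, ← Finset.sum_sub_distrib]
    exact Finset.sum_congr rfl fun d _ => by ring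
  rw [h5]
  linarith

end Vale.Agent.P050.H692.Sub3
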