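import Vale.Agent.P050.H692.Sub3.Spec5
import Vale.Agent.P050.H692.Sub3.T5

/-!
[E3] the entropy side.
-/

set_option linter.unusedSectionVars false

namespace Vale.Agent.P050.H692.Sub3

open Finset Vale.Agent.P050.H148 Vale.Agent.P050.Cart Vale.Agent.P050.M18 Vale.Agent.P050.H546
  Vale.Agent.P050.H936 Vale.Agent.P050.H869 Vale.Agent.P050.H869.Sub

variable {V C E D U : Type} [Fintype V] [DecidableEq V] [Fintype C] [DecidableEq C] [Fintype E]
  [Fintype D] [DecidableEq D] [Fintype U] [DecidableEq U]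

/-- the short legs at a centre -/
theorem qq_eq (a : D → C) (b : D → V) (m : V → ℕ) (μ : ℕ) (c : C) :
    qq a b m μ c = (univ.filter fun d : {d // a d = c} => 2 * m (b d.1) ≤ μ).card - 1 := by
  unfold qq
  rw [← Finset.card_map (Function.Embedding.subtype fun d => a d = c)]
  refine congrArg (fun S : Finset D => S.card - 1) ?_
  ext d
  simp only [Finset.mem_filter, Finset.mem_map, mem_univ, true_and]
  constructor
  · rintro ⟨h1, h2⟩
    exact ⟨⟨d, h1⟩, h2, rfl⟩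
  · rintro ⟨x, h2, rfl⟩
    exact ⟨x.2, h2⟩

/-- the short edges -/
theorem sum_hh_le {Q : U × U → ℝ} (hE : Edge Q) (g : E → SP) (μ : ℕ) (S : Finset E)
    (p : E → Prop) (hS : ∀ e, e ∈ S ↔ p e) :
    ∑ e ∈ S, hh Q (g e).len ≤ S.card * (2 * aQ Q) - (ee g μ p : ℝ) * (2 * aQ Q - hh Q μ) := by
  classical
  have hmono : Monotone (hh Q) := monotone_nat_of_le_succ (H23.hh_mono hE)
  have h1 : ∑ e ∈ S, hh Q (g e).len ≤
      ∑ e ∈ S, (2 * aQ Q - if (g e).len ≤ μ then (2 * aQ Q - hh Q μ) else 0) := by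
    refine Finset.sum_le_sum fun e _ => ?_
    split_ifs with h
    · have h2 : hh Q (g e).len ≤ hh Q μ := hmono h
      linarith
    · have h2 := H23.hh_le hE (g e).len
      linarith
  rw [Finset.sum_sub_distrib, Finset.sum_const, nsmul_eq_mul, ← Finset.sum_filter,
    Finset.sum_const, nsmul_eq_mul] at h1
  have h3 : (S.filter fun e => (g e).len ≤ μ).card = ee g μ p := by
    unfold ee
    congr 1
    ext e
    simp only [Finset.mem_filter, mem_univ, true_and, hS e]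
    exact and_comm
  rw [h3] at h1
  exact h1

/-- [E5] -/
theorem ent5 : Ent5Stmt := by
  classical
  intro V C E D U _ _ _ _ _ _ _ _ _ s t a b hst hinj m μ g k hokg hokk hleng hlenk r hr A Q hE
    hA hQA
  rw [ng_sum]
  have hnn : ∀ ω, 0 ≤ SL Q m ω := star_nonneg (SL_ok hE m)
  have htot : ∑ ω, SL Q m ω = 1 := star_total (SL_ok hE m)
  have hle : ∀ l, hh Q l ≤ 2 * aQ Q := fun l => H23.hh_le hE l
  have hmono : Monotone (hh Q) := monotone_nat_of_le_succ (H23.hh_mono hE)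
  have hkg := fun e => H692.Sub.ker2 U A Q hE hA hQA μ (g e) (hokg e)
  have hkk := fun d => H692.Sub.ker2 U A Q hE hA hQA μ (k d) (hokk d)
  let Z : C → (V → U) → ℝ := fun c x => ∑ y, ∏ d : {d // a d = c}, (k d.1).wt A (x (b d.1)) y
  let w : (V → U) → ℝ := fun x => (∏ e, (g e).wt A (x (s e)) (x (t e))) * ∏ c, Z c x
  have hZ : ∀ c x, 0 ≤ Z c x := fun c x =>
    sum_nonneg fun y _ => prod_nonneg fun d _ => (hkk d.1).1 _ _
  have hw : ∀ x, 0 ≤ w x := fun x =>
    mul_nonneg (prod_nonneg fun e _ => (hkg e).1 _ _) (prod_nonneg fun c _ => hZ c x)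
  have hlaw : ∀ e, mar (SL Q m) (fun ω => (ω.2 (s e), ω.2 (t e))) = EE Q (g e).len := by
    intro e
    rw [hleng e]
    exact funext fun x => SL_two hE m (hst e) x
  have hse : ∀ ω, SL Q m ω ≠ 0 → ∀ e, (g e).wt A (ω.2 (s e)) (ω.2 (t e)) ≠ 0 := by
    intro ω h0 e
    refine (hkg e).2.1 (ω.2 (s e), ω.2 (t e)) ?_
    rw [← hlaw e]
    exact mar_ne_zero hnn (fun ω => (ω.2 (s e), ω.2 (t e))) h0
  let ι : ∀ c, {d // a d = c} → V := fun c d => b d.1
  have hι : ∀ c, Function.Injective (ι c) := fun c d d' h =>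
    Subtype.ext (hinj d.1 d'.1 (d.2.trans d'.2.symm) h)
  have hck := fun c => cker hE m (ι c) (fun d => (k d.1).wt A) (fun d => (hkk d.1).1)
    (fun d x hx => (hkk d.1).2.1 x (by rw [hlenk d.1]; exact hx))
  have hsc : ∀ ω, SL Q m ω ≠ 0 → ∀ c, Z c ω.2 ≠ 0 := fun ω h0 c => (hck c).1 ω h0
  have hs : ∀ ω, SL Q m ω ≠ 0 → w ω.2 ≠ 0 := fun ω h0 =>
    mul_ne_zero (prod_ne_zero_iff.2 fun e _ => hse ω h0 e)
      (prod_ne_zero_iff.2 fun c _ => hsc ω h0 c)
  obtain ⟨hpos, key⟩ := ent_log_sum hnn htot (fun ω => ω.2) w hw hs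
  refine ⟨hpos, ?_⟩
  have key' : ent (SL Q m) (fun ω => ω.2) + ∑ ω, SL Q m ω * Real.log (w ω.2) ≤
      Real.log (∑ x, w x) := key
  have hlog : ∑ ω, SL Q m ω * Real.log (w ω.2) = ∑ e, ∑ p, EE Q (g e).len p *
      Real.log ((g e).wt A p.1 p.2) + ∑ c, ∑ ω, SL Q m ω * Real.log (Z c ω.2) := by
    have e1 : ∀ ω, SL Q m ω * Real.log (w ω.2) = ∑ e, SL Q m ω *
        Real.log ((g e).wt A (ω.2 (s e)) (ω.2 (t e))) + ∑ c, SL Q m ω * Real.log (Z c ω.2) := by
      intro ω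
      by_cases h0 : SL Q m ω = 0
      · simp [h0]
      rw [← mul_sum, ← mul_sum, ← mul_add]
      congr 1
      show Real.log (_ * _) = _
      rw [Real.log_mul (prod_ne_zero_iff.2 fun e _ => hse ω h0 e)
        (prod_ne_zero_iff.2 fun c _ => hsc ω h0 c), Real.log_prod fun e _ => hse ω h0 e,
        Real.log_prod fun c _ => hsc ω h0 c]
    rw [sum_congr rfl fun ω _ => e1 ω, sum_add_distrib, sum_comm]
    congr 1
    · refine sum_congr rfl fun e _ => ?_
      rw [← hlaw e]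
      exact (sum_mar (SL Q m) (fun ω => (ω.2 (s e), ω.2 (t e)))
        (fun p => Real.log ((g e).wt A p.1 p.2))).symm
    · exact sum_comm
  -- the edges
  have hsumg : ∑ e, (((g e).size : ℝ) * hQ Q - (2 * ((g e).size : ℝ) - (g e).num - 2) * aQ Q -
      hh Q (g e).len + ((g e).gain μ : ℝ) * (2 * aQ Q - hh Q μ)) ≤
      ∑ e, ∑ p, EE Q (g e).len p * Real.log ((g e).wt A p.1 p.2) :=
    sum_le_sum fun e _ => (hkg e).2.2
  -- the centres
  let T : C → ℝ := fun c => ent (SL Q m) (fun ω => (ω.1, fun d : {d // a d = c} => ω.2 (b d.1))) -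
    ent (SL Q m) (fun ω => fun d : {d // a d = c} => ω.2 (b d.1))
  have hT : ∀ c, aQ Q + ∑ d : {d // a d = c}, (hh Q (m (b d.1)) - 2 * aQ Q) +
      (qq a b m μ c : ℝ) * (2 * aQ Q - hh Q μ) ≤ T c := fun c => by
    rw [qq_eq]
    exact cen5 hE m (ι c) (hι c) μ
  let κ : D → ℝ := fun d => ((k d).size : ℝ) * hQ Q - (2 * ((k d).size : ℝ) - (k d).num - 2) * aQ Q -
      hh Q (m (b d)) + ((k d).gain μ : ℝ) * (2 * aQ Q - hh Q μ)
  have hκ : ∀ d, κ d ≤ ∑ p, EE Q (m (b d)) p * Real.log ((k d).wt A p.1 p.2) := by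
    intro d
    have h1 := (hkk d).2.2
    rw [hlenk d] at h1
    exact h1
  have hsumc : ∑ c, T c + ∑ d, κ d ≤ ∑ c, ∑ ω, SL Q m ω * Real.log (Z c ω.2) := by
    have h1 : ∀ c, T c + ∑ d : {d // a d = c}, κ d.1 ≤ ∑ ω, SL Q m ω * Real.log (Z c ω.2) := by
      intro c
      have h2 := (hck c).2
      have h3 : ∑ d : {d // a d = c}, κ d.1 ≤ ∑ d : {d // a d = c}, ∑ x, EE Q (m (ι c d)) x *
          Real.log ((k d.1).wt A x.1 x.2) := sum_le_sum fun d _ => hκ d.1
      have h4 : T c + ∑ d : {d // a d = c}, ∑ x, EE Q (m (ι c d)) x *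
          Real.log ((k d.1).wt A x.1 x.2) ≤ ∑ ω, SL Q m ω * Real.log (Z c ω.2) := h2
      linarith
    have h5 := sum_le_sum fun c (_ : c ∈ (univ : Finset C)) => h1 c
    rw [sum_add_distrib, Fintype.sum_fiberwise a] at h5
    exact h5
  -- numbers
  have e2 : ∑ e, (((g e).size : ℝ) * hQ Q - (2 * ((g e).size : ℝ) - (g e).num - 2) * aQ Q -
      hh Q (g e).len + ((g e).gain μ : ℝ) * (2 * aQ Q - hh Q μ)) =
      (∑ e, ((g e).size : ℝ)) * hQ Q -
      (2 * ∑ e, ((g e).size : ℝ) - ∑ e, ((g e).num : ℝ) - 2 * Fintype.card E) * aQ Q -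
      ∑ e, hh Q (g e).len + (∑ e, ((g e).gain μ : ℝ)) * (2 * aQ Q - hh Q μ) := by
    simp only [sum_add_distrib, sum_sub_distrib, ← sum_mul, ← mul_sum, sum_const, card_univ,
      nsmul_eq_mul]
    ring
  have e2' : ∑ d, κ d = (∑ d, ((k d).size : ℝ)) * hQ Q -
      (2 * ∑ d, ((k d).size : ℝ) - ∑ d, ((k d).num : ℝ) - 2 * Fintype.card D) * aQ Q -
      ∑ d, hh Q (m (b d)) + (∑ d, ((k d).gain μ : ℝ)) * (2 * aQ Q - hh Q μ) := by
    simp only [κ, sum_add_distrib, sum_sub_distrib, ← sum_mul, ← mul_sum, sum_const, card_univ,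
      nsmul_eq_mul]
    ring
  have e3 : (∑ e, (2 * ((g e).size : ℝ) - ((g e).num : ℝ))) =
      2 * ∑ e, ((g e).size : ℝ) - ∑ e, ((g e).num : ℝ) := by
    simp only [sum_sub_distrib, ← mul_sum]
  have e3' : (∑ d, (2 * ((k d).size : ℝ) - ((k d).num : ℝ))) =
      2 * ∑ d, ((k d).size : ℝ) - ∑ d, ((k d).num : ℝ) := by
    simp only [sum_sub_distrib, ← mul_sum]
  have e4 : ∑ d, (hh Q (m (b d)) - 2 * aQ Q) = ∑ d, hh Q (m (b d)) -
      2 * Fintype.card D * aQ Q := by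
    simp only [sum_sub_distrib, sum_const, card_univ, nsmul_eq_mul]
    ring
  rw [e2] at hsumg
  rw [e2'] at hsumc
  rw [e3, e3']
  rw [hlog] at key'
  rcases hr with ⟨e0, rfl, hm⟩ | ⟨d0, rfl, hm⟩
  · -- an edge
    have hent := ends4 hE m μ (hst e0) hm
    have hhe : ∑ e, hh Q (g e).len ≤ hh Q (m (s e0) + m (t e0)) +
        (((Fintype.card E : ℝ) - 1) * (2 * aQ Q) -
          (ee g μ (fun e => e ≠ e0) : ℝ) * (2 * aQ Q - hh Q μ)) := by
      rw [← Finset.add_sum_erase univ _ (mem_univ e0), hleng e0]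
      have h4 := sum_hh_le hE g μ (univ.erase e0) (fun e => e ≠ e0) (fun e => by simp)
      rw [card_erase_of_mem (mem_univ e0), card_univ,
        Nat.cast_sub (Fintype.card_pos_iff.2 ⟨e0⟩), Nat.cast_one] at h4
      linarith
    have hTs : Fintype.card C * aQ Q + ∑ d, (hh Q (m (b d)) - 2 * aQ Q) +
        (∑ c, (qq a b m μ c : ℝ)) * (2 * aQ Q - hh Q μ) ≤ ∑ c, T c := by
      have h5 := sum_le_sum fun c (_ : c ∈ (univ : Finset C)) => hT c
      rw [sum_add_distrib, sum_add_distrib, sum_const, nsmul_eq_mul, card_univ,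
        Fintype.sum_fiberwise a (fun d => hh Q (m (b d)) - 2 * aQ Q), ← sum_mul] at h5
      exact h5
    rw [e4] at hTs
    have key2 : Real.log (∑ x, w x) = Real.log (∑ x : V → U, (∏ e, (g e).wt A (x (s e)) (x (t e))) *
        ∏ c, ∑ y, ∏ d : {d // a d = c}, (k d.1).wt A (x (b d.1)) y) := rfl
    rw [← key2]
    push_cast
    linarith [key', hsumg, hsumc, hhe, hent, hTs]
  · -- a centre
    have hhe : ∑ e, hh Q (g e).len ≤ (Fintype.card E : ℝ) * (2 * aQ Q) -
        (ee g μ (fun _ => True) : ℝ) * (2 * aQ Q - hh Q μ) := by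
      have h4 := sum_hh_le hE g μ univ (fun _ => True) (fun e => by simp)
      rw [card_univ] at h4
      exact h4
    have h0 : aQ Q + ∑ v, (hh Q (m v) - aQ Q) ≤ ent (SL Q m) (fun ω => ω.2) + T (a d0) :=
      cen0 hE m (ι (a d0))
    have hTs : (Fintype.card C - 1) * aQ Q + ∑ d, (hh Q (m (b d)) - 2 * aQ Q) -
        ∑ d : {d // a d = a d0}, (hh Q (m (b d.1)) - 2 * aQ Q) +
        (∑ c ∈ univ.erase (a d0), (qq a b m μ c : ℝ)) * (2 * aQ Q - hh Q μ) +
        T (a d0) ≤ ∑ c, T c := by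
      rw [← Finset.add_sum_erase univ T (mem_univ (a d0)),
        ← Fintype.sum_fiberwise a (fun d => hh Q (m (b d)) - 2 * aQ Q),
        ← Finset.add_sum_erase univ (fun c => ∑ d : {d // a d = c}, (hh Q (m (b d.1)) - 2 * aQ Q))
          (mem_univ (a d0))]
      have h5 := sum_le_sum fun c (_ : c ∈ (univ : Finset C).erase (a d0)) => hT c
      rw [sum_add_distrib, sum_add_distrib, sum_const, nsmul_eq_mul,
        card_erase_of_mem (mem_univ _), card_univ,
        Nat.cast_sub (Fintype.card_pos_iff.2 ⟨a d0⟩), Nat.cast_one, ← sum_mul] at h5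
      linarith
    have hfe : univ.filter (fun c => c ≠ a d0) = univ.erase (a d0) := by
      ext c
      simp
    have h6 := sum_inj_ge4 (ι (a d0)) (hι (a d0)) (fun v => hh Q (m v) - 2 * aQ Q)
      (2 * aQ Q - hh Q μ) (fun v hv => by
        have h7 : hh Q μ ≤ hh Q (m v) := hmono (hm v fun d hd => hv ⟨d, hd⟩)
        linarith)
    have h6' : ∑ d : {d // a d = a d0}, (hh Q (m (b d.1)) - 2 * aQ Q) -
        ((Fintype.card V : ℝ) - Fintype.card {d // a d = a d0}) * (2 * aQ Q - hh Q μ) ≤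
        ∑ v, (hh Q (m v) - 2 * aQ Q) := h6
    have h8 : ∑ v, (hh Q (m v) - 2 * aQ Q) = ∑ v, (hh Q (m v) - aQ Q) -
        Fintype.card V * aQ Q := by
      simp only [sum_sub_distrib, sum_const, card_univ, nsmul_eq_mul]
      ring
    rw [e4] at hTs
    rw [h8] at h6'
    have key2 : Real.log (∑ x, w x) = Real.log (∑ x : V → U, (∏ e, (g e).wt A (x (s e)) (x (t e))) *
        ∏ c, ∑ y, ∏ d : {d // a d = c}, (k d.1).wt A (x (b d.1)) y) := rfl
    rw [← key2, hfe]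
    push_cast
    linarith [key', hsumg, hsumc, hhe, h0, hTs, h6']

end Vale.Agent.P050.H692.Sub3
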