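import Vale.Agent.P050.H692.Sub3.E3
import Vale.Agent.P050.H936.Final2
import Vale.Agent.P050.H465.Sub.Graph2
import Vale.Agent.P050.H226.Sub2.Card

/-!
[F3]: densities.
-/

set_option linter.unusedSectionVars false

namespace Vale.Agent.P050.H692.Sub3

open Finset Vale.Agent.P050.H148 Vale.Agent.P050.Cart Vale.Agent.P050.Join Vale.Agent.P050.M18
open Vale.Agent.P050.H546 Vale.Agent.P050.H222 Vale.Agent.P050.H936

theorem size_bound {E : Type} [Fintype E] (μ c : ℕ) (g : E → SP) (hok : ∀ e, (g e).Ok)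
    (hlen : ∀ e, c ≤ (g e).len) :
    ∑ e, (g e).num + (c + 1) * Fintype.card E + ∑ e, (g e).gain μ ≤ 2 * ∑ e, (g e).size := by
  have h1 : ∑ e, ((g e).num + (c + 1) + (g e).gain μ) ≤ ∑ e, 2 * (g e).size := by
    refine Finset.sum_le_sum fun e _ => ?_
    have h2 := SP.size_ge μ (g e) (hok e)
    have h3 := hlen e
    omega
  simp only [Finset.sum_add_distrib, Finset.sum_const, Finset.card_univ, smul_eq_mul,
    ← Finset.mul_sum] at h1
  rw [mul_comm (c + 1)]
  linarith

/-- [F3] -/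
theorem final3 (he : Ent3Stmt) (hg : Graph2Stmt) (hc : Card2Stmt) : Final3Stmt := by
  intro V C E D _ _ _ _ s t a b hst hinj hsurj m μ hμ hm g k hokg hokk hleng hlenk r hr j hj
    X _ _ G
  classical
  have hne : ∀ i, fst (C := C) s b i ≠ snd t a i := by
    rintro (e | d)
    · intro h
      exact hst e (Sum.inl.inj h)
    · intro h
      exact Sum.inl_ne_inr h
  have hlen4 : ∀ e, 4 ≤ (g e).len := by
    intro e
    rw [hleng e]
    have h1 := hm (s e)
    have h2 := hm (t e)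
    omega
  have hlen2 : ∀ d, 2 ≤ (k d).len := by
    intro d
    rw [hlenk d]
    have h1 := hm (b d)
    omega
  have hcard : Nat.card (spGraph (fst (C := C) s b) (snd t a) (Sum.elim g k)).edgeSet =
      ∑ e, (g e).size + ∑ d, (k d).size := by
    have h := hc (V ⊕ C) (E ⊕ D) (fst s b) (snd t a) (Sum.elim g k) hne
      (by rintro (e | d); exacts [hokg e, hokk d])
      (by
        rintro (e | d)
        · exact le_trans (by norm_num) (hlen4 e)
        · exact hlen2 d)
    rw [Fintype.sum_sum_type] at h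
    exact h
  rw [hcard]
  have hr' : (Nonempty E ∧ r = 2) ∨ ∃ d₀, r = Fintype.card {d // a d = a d₀} := by
    rcases hr with h | ⟨d₀, h⟩
    · exact Or.inl h
    · exact Or.inr ⟨d₀, by rw [h, Nat.card_eq_fintype_card]⟩
  have hrb : (1 ≤ Fintype.card E ∧ r = 2) ∨ (r ≤ Fintype.card D ∧ 1 ≤ Fintype.card D) := by
    rcases hr' with ⟨h1, h2⟩ | ⟨d₀, h⟩
    · exact Or.inl ⟨Fintype.card_pos, h2⟩
    · refine Or.inr ⟨?_, Fintype.card_pos_iff.2 ⟨d₀⟩⟩
      rw [h]
      exact Fintype.card_subtype_le _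
  have hCD : Fintype.card C ≤ Fintype.card D := Fintype.card_le_of_surjective a hsurj
  have hszg := size_bound μ 4 g hokg hlen4
  have hszk := size_bound μ 2 k hokk hlen2
  have hexp : Fintype.card V + Fintype.card C + (∑ e, (g e).num + ∑ d, (k d).num) + 1 ≤
      2 * (∑ e, (g e).size + ∑ d, (k d).size) + 4 * j := by
    rcases hrb with ⟨h1, h2⟩ | ⟨h1, h2⟩ <;> omega
  rcases (edge_nn G).lt_or_eq with hp | hp
  swap
  · have h0 : ∑ e, (g e).size + ∑ d, (k d).size + 4 * j ≠ 0 := by omega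
    rw [← hp, zero_pow h0]
    exact mul_nonneg (hom_nn G _) (pow_nonneg (hom_nn G _) _)
  have hG := exists_adj G hp
  have hn := card_pos' (X := X)
  have hE := ue_edge G hG
  obtain ⟨h1, h2⟩ := he V C E D X s t a b hst hinj m μ hm g k hokg hokk hleng hlenk r hr' (adj G)
    (ue G) hE (M18.adj_nn G) (fun x y h => ue_ne G h)
  obtain ⟨h3, h4⟩ := four_log G hG
  have hgG := hg (V ⊕ C) (E ⊕ D) X (fst s b) (snd t a) hne (Sum.elim g k) G
  rw [Fintype.card_sum, Fintype.sum_sum_type] at hgG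
  rw [← hgG] at h1 h2
  rw [tot_num] at h3 h4
  have ht : 0 < homDensity (spGraph (fst (C := C) s b) (snd t a) (Sum.elim g k)) G := by
    rcases (hom_nn G (spGraph (fst (C := C) s b) (snd t a) (Sum.elim g k))).lt_or_eq with h | h
    · exact h
    · rw [← h, zero_mul] at h1
      exact absurd h1 (lt_irrefl _)
  have ht4 : 0 < homDensity (SimpleGraph.cycleGraph 4) G := by
    rcases (hom_nn G (SimpleGraph.cycleGraph 4)).lt_or_eq with h | h
    · exact h
    · rw [← h, zero_mul] at h3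
      exact absurd h3 (lt_irrefl _)
  have h5 := ue_aQ G hG
  have h6 : hQ (ue G) = Real.log (edgeDensity G) + 2 * Real.log (Fintype.card X) := by
    rw [ue_hQ G hG]
    unfold de
    rw [Fintype.sum_prod_type]
    simp only
    rw [adj_sum', Real.log_mul hp.ne' (by positivity), Real.log_pow]
    push_cast
    ring
  obtain ⟨i1, i2, i3, -⟩ := H23.gInf X (ue G) hE
  have h7 : hh (ue G) 2 ≤ hh (ue G) μ := monotone_nat_of_le_succ i3 hμ
  rw [i1] at h7
  have h8 := i2 μ
  rw [Real.log_mul ht.ne' (by positivity), Real.log_pow] at h2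
  rw [Real.log_mul ht4.ne' (by positivity), Real.log_pow] at h4
  rw [← Real.log_le_log_iff (by positivity) (by positivity), Real.log_pow,
    Real.log_mul ht.ne' (by positivity), Real.log_pow]
  simp only [Sum.elim_inl, Sum.elim_inr] at h2
  push_cast at h2 h4 ⊢
  have hj' : (Fintype.card V : ℝ) ≤ ∑ e, ((g e).gain μ : ℝ) + ∑ d, ((k d).gain μ : ℝ) + j + r := by
    exact_mod_cast hj
  have hexp' : (Fintype.card V : ℝ) + Fintype.card C + (∑ e, ((g e).num : ℝ) +
      ∑ d, ((k d).num : ℝ)) + 1 ≤ 2 * (∑ e, ((g e).size : ℝ) + ∑ d, ((k d).size : ℝ)) + 4 * j := by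
    exact_mod_cast hexp
  simp only [Finset.sum_sub_distrib, ← Finset.mul_sum] at h2 ⊢
  have hj0 : (0 : ℝ) ≤ j := Nat.cast_nonneg _
  set Sg := ∑ e, ((g e).size : ℝ)
  set Ng := ∑ e, ((g e).num : ℝ)
  set Gg := ∑ e, ((g e).gain μ : ℝ)
  set Sk := ∑ d, ((k d).size : ℝ)
  set Nk := ∑ d, ((k d).num : ℝ)
  set Gk := ∑ d, ((k d).gain μ : ℝ)
  set n : ℝ := (Fintype.card V : ℝ)
  set c : ℝ := (Fintype.card C : ℝ)
  set ρ : ℝ := (r : ℝ)
  set α := aQ (ue G)
  set L := Real.log (Fintype.card X)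
  set lp := Real.log (edgeDensity G)
  set y := hh (ue G) μ
  set z := h2Q (ue G)
  have h9 := mul_le_mul_of_nonneg_left h4 hj0
  have h10 : 0 ≤ (Gg + Gk + j + ρ - n) * (2 * α - y) := mul_nonneg (by linarith) (by linarith)
  have h11 : 0 ≤ (2 * (Sg + Sk) - (Ng + Nk) - n - c + 4 * j) * (L - α) :=
    mul_nonneg (by linarith) (by linarith)
  have h12 : 0 ≤ (j : ℝ) * (y - z) := mul_nonneg hj0 (by linarith)
  rw [h6] at h2 h9
  nlinarith [h2, h9, h10, h11, h12]

/-- the theorem -/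
theorem main3 : Final3Stmt := final3 ent3 H465.Sub2.graph2 H226.Sub2.card2

end Vale.Agent.P050.H692.Sub3
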