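import Vale.Agent.P050.H692.Sub3.E5
import Vale.Agent.P050.H692.Sub3.Card4
import Vale.Agent.P050.H692.Sub3.F3

/-!
[F5]: densities.
-/

set_option linter.unusedSectionVars false

namespace Vale.Agent.P050.H692.Sub3

open Finset Vale.Agent.P050.H148 Vale.Agent.P050.Cart Vale.Agent.P050.Join Vale.Agent.P050.M18
open Vale.Agent.P050.H546 Vale.Agent.P050.H222 Vale.Agent.P050.H936

/-- [F5] the theorem -/
def Final5Stmt : Prop := ∀ (V C E D : Type) [Fintype V] [Fintype C] [Fintype E] [Fintype D]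
  (s t : E → V) (a : D → C) (b : D → V), (∀ e, s e ≠ t e) →
  (∀ d d', a d = a d' → b d = b d' → d = d') → Function.Surjective a →
  ∀ (m : V → ℕ) (μ : ℕ), 2 ≤ μ → (∀ v, 1 ≤ m v) →
  ∀ (g : E → SP) (k : D → SP), (∀ e, (g e).Ok) → (∀ d, (k d).Ok) →
  (∀ e, (g e).len = m (s e) + m (t e)) → (∀ d, (k d).len = m (b d)) → ∀ r : ℕ,
  ((∃ e₀, r = 2 + ee g μ (fun e => e ≠ e₀) + ∑ c, qq a b m μ c ∧
      ∀ v, v ≠ s e₀ → v ≠ t e₀ → μ ≤ m v) ∨
    ∃ d₀, r = Nat.card {d // a d = a d₀} + ee g μ (fun _ => True) +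
      (∑ c, qq a b m μ c - qq a b m μ (a d₀)) ∧
      ∀ v, (∀ d, a d = a d₀ → b d ≠ v) → μ ≤ m v) →
  ∀ j : ℕ, Fintype.card V ≤ ∑ e, (g e).gain μ + ∑ d, (k d).gain μ + j + r →
  ∀ (X : Type) [Fintype X] [Nonempty X] (G : SimpleGraph X),
  edgeDensity G ^ (Nat.card (spGraph (fst (C := C) s b) (snd t a) (Sum.elim g k)).edgeSet + 4 * j) ≤
    homDensity (spGraph (fst (C := C) s b) (snd t a) (Sum.elim g k)) G *
      homDensity (SimpleGraph.cycleGraph 4) G ^ j

theorem ee_le {E : Type} [Fintype E] (g : E → SP) (μ : ℕ) (p : E → Prop) :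
    ee g μ p ≤ Fintype.card E := by
  unfold ee
  exact Finset.card_le_univ _

/-- the short legs at the centres of a set -/
theorem sum_qq_le {V C D : Type} [Fintype C] [Fintype D] (a : D → C) (b : D → V)
    (m : V → ℕ) (μ : ℕ) (ha : Function.Surjective a) (S : Finset C) (d₀ : D)
    (hS : a d₀ ∉ S) : ∑ c ∈ S, qq a b m μ c + S.card +
      Nat.card {d // a d = a d₀} ≤ Fintype.card D := by
  classical
  have h1 : ∀ c, qq a b m μ c + 1 ≤ (univ.filter fun d => a d = c).card := by
    intro c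
    obtain ⟨d, hd⟩ := ha c
    have h2 : 1 ≤ (univ.filter fun d => a d = c).card :=
      Finset.card_pos.2 ⟨d, Finset.mem_filter.2 ⟨mem_univ _, hd⟩⟩
    have h3 : (univ.filter fun d => a d = c ∧ 2 * m (b d) ≤ μ).card ≤
        (univ.filter fun d => a d = c).card := Finset.card_le_card fun x hx =>
      Finset.mem_filter.2 ⟨mem_univ _, ((Finset.mem_filter.1 hx).2).1⟩
    have h4 : qq a b m μ c = (univ.filter fun d => a d = c ∧ 2 * m (b d) ≤ μ).card - 1 := by
      unfold qq
      refine congrArg (fun S : Finset D => S.card - 1) ?_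
      ext d
      simp only [Finset.mem_filter]
    omega
  have h5 : Nat.card {d // a d = a d₀} = (univ.filter fun d => a d = a d₀).card := by
    rw [Nat.card_eq_fintype_card, Fintype.card_subtype]
  have h6 : ∑ c ∈ S, qq a b m μ c + S.card = ∑ c ∈ S, (qq a b m μ c + 1) := by
    rw [Finset.sum_add_distrib, Finset.sum_const, smul_eq_mul, mul_one]
  have h7 : ∑ c ∈ S, (qq a b m μ c + 1) ≤ ∑ c ∈ S, (univ.filter fun d => a d = c).card :=
    Finset.sum_le_sum fun c _ => h1 c
  have h8 : ∑ c ∈ insert (a d₀) S, (univ.filter fun d => a d = c).card ≤ Fintype.card D := by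
    rw [← Finset.card_biUnion]
    · exact Finset.card_le_univ _
    · intro c _ c' _ hcc
      refine Finset.disjoint_left.2 fun d h9 h10 => hcc ?_
      exact ((Finset.mem_filter.1 h9).2).symm.trans (Finset.mem_filter.1 h10).2
  rw [Finset.sum_insert hS] at h8
  omega

/-- [F5] -/
theorem final5 (he : Ent5Stmt) (hg : Graph2Stmt) : Final5Stmt := by
  intro V C E D _ _ _ _ s t a b hst hinj hsurj m μ hμ hm g k hokg hokk hleng hlenk r hr j hj
    X _ _ G
  classical
  have hne : ∀ i, fst (C := C) s b i ≠ snd t a i := by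
    rintro (e | d)
    · intro h
      exact hst e (Sum.inl.inj h)
    · intro h
      exact Sum.inl_ne_inr h
  have hlen4 : ∀ e, 2 ≤ (g e).len := by
    intro e
    rw [hleng e]
    have h1 := hm (s e)
    have h2 := hm (t e)
    omega
  have hlen2 : ∀ d, 1 ≤ (k d).len := by
    intro d
    rw [hlenk d]
    exact hm (b d)
  have hcard : Nat.card (spGraph (fst (C := C) s b) (snd t a) (Sum.elim g k)).edgeSet =
      ∑ e, (g e).size + ∑ d, (k d).size := by
    have h := card4 (fst (C := C) s b) (snd t a) (Sum.elim g k) hne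
      (by rintro (e | d); exacts [hokg e, hokk d])
      (by
        rintro (e | d) (e' | d') hdd
        · exact Or.inl (hlen4 e)
        · exact Or.inl (hlen4 e)
        · exact Or.inr (Or.inl (hlen4 e'))
        · refine Or.inr (Or.inr ?_)
          rintro (⟨h1, h2⟩ | ⟨h1, h2⟩)
          · exact hdd (congrArg Sum.inr (hinj d d' (Sum.inr.inj h2) (Sum.inl.inj h1)))
          · exact Sum.inl_ne_inr h1)
    rw [Fintype.sum_sum_type] at h
    exact h
  rw [hcard]
  have hsq : ∀ c₀, ∑ c, qq a b m μ c - qq a b m μ c₀ =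
      ∑ c ∈ univ.filter (fun c => c ≠ c₀), qq a b m μ c := by
    intro c₀
    rw [← Finset.add_sum_erase univ (fun c => qq a b m μ c) (mem_univ c₀)]
    have hfe : univ.filter (fun c => c ≠ c₀) = univ.erase c₀ := by
      ext c
      simp
    rw [hfe]
    omega
  have hr' : (∃ e₀, r = 2 + ee g μ (fun e => e ≠ e₀) + ∑ c, qq a b m μ c ∧
      ∀ v, v ≠ s e₀ → v ≠ t e₀ → μ ≤ m v) ∨
      ∃ d₀, r = Fintype.card {d // a d = a d₀} + ee g μ (fun _ => True) +
      ∑ c ∈ univ.filter (fun c => c ≠ a d₀), qq a b m μ c ∧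
      ∀ v, (∀ d, a d = a d₀ → b d ≠ v) → μ ≤ m v := by
    rcases hr with h | ⟨d₀, h, h'⟩
    · exact Or.inl h
    · exact Or.inr ⟨d₀, by rw [h, Nat.card_eq_fintype_card, hsq], h'⟩
  have hrb : (1 ≤ Fintype.card E ∨ 1 ≤ Fintype.card D) ∧
      r + Fintype.card C ≤ 2 + Fintype.card E + 2 * Fintype.card D ∧
      r + Fintype.card C ≤ 3 * Fintype.card E + 2 * Fintype.card D := by
    rcases hr with ⟨e₀, h, -⟩ | ⟨d₀, h, -⟩
    · have h1 := ee_le g μ (fun e => e ≠ e₀)
      have h2 : 1 ≤ Fintype.card E := Fintype.card_pos_iff.2 ⟨e₀⟩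
      have h3 : ∑ c, qq a b m μ c + Fintype.card C ≤ Fintype.card D := by
        rcases isEmpty_or_nonempty D with hD | ⟨⟨d₁⟩⟩
        · have hC : IsEmpty C := ⟨fun c => by
            obtain ⟨d, -⟩ := hsurj c
            exact hD.elim d⟩
          rw [Finset.univ_eq_empty, Finset.sum_empty, Fintype.card_of_isEmpty]
          omega
        · have h4 := sum_qq_le a b m μ hsurj (univ.erase (a d₁)) d₁ (by simp)
          rw [Finset.card_erase_of_mem (mem_univ _), card_univ] at h4
          have h5 : qq a b m μ (a d₁) + 1 ≤ Nat.card {d // a d = a d₁} := by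
            rw [qq_eq, Nat.card_eq_fintype_card]
            have h6 : (univ.filter fun d : {d // a d = a d₁} => 2 * m (b d.1) ≤ μ).card ≤
                Fintype.card {d // a d = a d₁} := Finset.card_le_univ _
            have h7 : 1 ≤ Fintype.card {d // a d = a d₁} := Fintype.card_pos_iff.2 ⟨⟨d₁, rfl⟩⟩
            omega
          have h8 := Finset.add_sum_erase univ (fun c => qq a b m μ c) (mem_univ (a d₁))
          have h9 : 1 ≤ Fintype.card C := Fintype.card_pos_iff.2 ⟨a d₁⟩
          omega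
      refine ⟨Or.inl h2, ?_, ?_⟩ <;> omega
    · have h1 := ee_le g μ (fun _ => True)
      have h2 : 1 ≤ Fintype.card D := Fintype.card_pos_iff.2 ⟨d₀⟩
      have h4 := sum_qq_le a b m μ hsurj (univ.erase (a d₀)) d₀ (by simp)
      rw [Finset.card_erase_of_mem (mem_univ _), card_univ] at h4
      have h8 := hsq (a d₀)
      have hfe : univ.filter (fun c => c ≠ a d₀) = univ.erase (a d₀) := by
        ext c
        simp
      rw [hfe] at h8
      have h9 : 1 ≤ Fintype.card C := Fintype.card_pos_iff.2 ⟨a d₀⟩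
      refine ⟨Or.inr h2, ?_, ?_⟩ <;> omega
  have hszg := size_bound μ 2 g hokg hlen4
  have hszk := size_bound μ 1 k hokk hlen2
  have hexp : Fintype.card V + Fintype.card C + (∑ e, (g e).num + ∑ d, (k d).num) ≤
      2 * (∑ e, (g e).size + ∑ d, (k d).size) + 4 * j := by
    obtain ⟨-, -, h2⟩ := hrb
    omega
  rcases (edge_nn G).lt_or_eq with hp | hp
  swap
  · have h0 : ∑ e, (g e).size + ∑ d, (k d).size + 4 * j ≠ 0 := by
      obtain ⟨h1 | h1, -, -⟩ := hrb <;> omega
    rw [← hp, zero_pow h0]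
    exact mul_nonneg (hom_nn G _) (pow_nonneg (hom_nn G _) _)
  have hG := exists_adj G hp
  have hn := card_pos' (X := X)
  have hE := ue_edge G hG
  obtain ⟨h1, h2⟩ := he V C E D X s t a b hst hinj m μ g k hokg hokk hleng hlenk r hr' (adj G)
    (ue G) hE (M18.adj_nn G) (fun x y h => ue_ne G h)
  obtain ⟨h3, h4⟩ := four_log G hG
  have hgG := hg (V ⊕ C) (E ⊕ D) X (fst s b) (snd t a) hne (Sum.elim g k) G
  rw [Fintype.card_sum, Fintype.sum_sum_type] at hgG
  rw [← hgG] at h1 h2
  rw [tot_num] at h3 h4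
  have ht : 0 < homDensity (spGraph (fst (C := C) s b) (snd t a) (Sum.elim g k)) G := by
    rcases (hom_nn G (spGraph (fst (C := C) s b) (snd t a) (Sum.elim g k))).lt_or_eq with h | h
    · exact h
    · rw [← h, zero_mul] at h1
      exact absurd h1 (lt_irrefl _)
  have ht4 : 0 < homDensity (SimpleGraph.cycleGraph 4) G := by
    rcases (hom_nn G (SimpleGraph.cycleGraph 4)).lt_or_eq with h | h
    · exact h
    · rw [← h, zero_mul] at h3
      exact absurd h3 (lt_irrefl _)
  have h5 := ue_aQ G hG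
  have h6 : hQ (ue G) = Real.log (edgeDensity G) + 2 * Real.log (Fintype.card X) := by
    rw [ue_hQ G hG]
    unfold de
    rw [Fintype.sum_prod_type]
    simp only
    rw [adj_sum', Real.log_mul hp.ne' (by positivity), Real.log_pow]
    push_cast
    ring
  obtain ⟨i1, i2, i3, -⟩ := H23.gInf X (ue G) hE
  have h7 : hh (ue G) 2 ≤ hh (ue G) μ := monotone_nat_of_le_succ i3 hμ
  rw [i1] at h7
  have h8 := i2 μ
  rw [Real.log_mul ht.ne' (by positivity), Real.log_pow] at h2
  rw [Real.log_mul ht4.ne' (by positivity), Real.log_pow] at h4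
  rw [← Real.log_le_log_iff (by positivity) (by positivity), Real.log_pow,
    Real.log_mul ht.ne' (by positivity), Real.log_pow]
  simp only [Sum.elim_inl, Sum.elim_inr] at h2
  push_cast at h2 h4 ⊢
  have hj' : (Fintype.card V : ℝ) ≤ ∑ e, ((g e).gain μ : ℝ) + ∑ d, ((k d).gain μ : ℝ) + j + r := by
    exact_mod_cast hj
  have hexp' : (Fintype.card V : ℝ) + Fintype.card C + (∑ e, ((g e).num : ℝ) +
      ∑ d, ((k d).num : ℝ)) ≤ 2 * (∑ e, ((g e).size : ℝ) + ∑ d, ((k d).size : ℝ)) + 4 * j := by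
    exact_mod_cast hexp
  simp only [Finset.sum_sub_distrib, ← Finset.mul_sum] at h2 ⊢
  have hj0 : (0 : ℝ) ≤ j := Nat.cast_nonneg _
  set Sg := ∑ e, ((g e).size : ℝ)
  set Ng := ∑ e, ((g e).num : ℝ)
  set Gg := ∑ e, ((g e).gain μ : ℝ)
  set Sk := ∑ d, ((k d).size : ℝ)
  set Nk := ∑ d, ((k d).num : ℝ)
  set Gk := ∑ d, ((k d).gain μ : ℝ)
  set n : ℝ := (Fintype.card V : ℝ)
  set c : ℝ := (Fintype.card C : ℝ)
  set ρ : ℝ := (r : ℝ)
  set α := aQ (ue G)
  set L := Real.log (Fintype.card X)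
  set lp := Real.log (edgeDensity G)
  set y := hh (ue G) μ
  set z := h2Q (ue G)
  have h9 := mul_le_mul_of_nonneg_left h4 hj0
  have h10 : 0 ≤ (Gg + Gk + j + ρ - n) * (2 * α - y) := mul_nonneg (by linarith) (by linarith)
  have h11 : 0 ≤ (2 * (Sg + Sk) - (Ng + Nk) - n - c + 4 * j) * (L - α) :=
    mul_nonneg (by linarith) (by linarith)
  have h12 : 0 ≤ (j : ℝ) * (y - z) := mul_nonneg hj0 (by linarith)
  rw [h6] at h2 h9
  nlinarith [h2, h9, h10, h11, h12]

/-- the theorem -/
theorem main5 : Final5Stmt := final5 ent5 H465.Sub2.graph2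

end Vale.Agent.P050.H692.Sub3
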