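import Vale.Agent.P050.H692.Sub3.F4

/-!
The theorem with a base set `B`.
-/

set_option linter.unusedSectionVars false

namespace Vale.Agent.P050.H692.Sub3

open Finset Vale.Agent.P050 Vale.Agent.P050.H936

/-- every graph, with centres -/
theorem every (V C E D : Type) [Fintype V] [Fintype C] [Fintype E] [Fintype D] (s t : E → V)
    (a : D → C) (b : D → V) (hst : ∀ e, s e ≠ t e)
    (hinj : ∀ d d', a d = a d' → b d = b d' → d = d') (hsurj : Function.Surjective a)
    (m : V → ℕ) (μ : ℕ) (hμ : 2 ≤ μ) (hm : ∀ v, 1 ≤ m v) (B : Finset V)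
    (hB : (∃ e₀, ∀ v, v ∈ B ↔ v = s e₀ ∨ v = t e₀) ∨
      ∃ d₀, ∀ v, v ∈ B ↔ ∃ d, a d = a d₀ ∧ b d = v)
    (hmB : ∀ v, v ∉ B → μ ≤ m v) (g : E → SP) (k : D → SP) (hg : ∀ e, (g e).Ok)
    (hk : ∀ d, (k d).Ok) (hgl : ∀ e, (g e).len = m (s e) + m (t e))
    (hkl : ∀ d, (k d).len = m (b d)) (j : ℕ)
    (hj : Fintype.card V ≤ ∑ e, (g e).gain μ + ∑ d, (k d).gain μ + j + B.card)
    (X : Type) [Fintype X] [Nonempty X] (G : SimpleGraph X) :
    edgeDensity G ^ (Nat.card (spGraph (Sum.elim (fun e => Sum.inl (s e)) fun d => Sum.inl (b d))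
        (Sum.elim (fun e => Sum.inl (t e)) fun d => Sum.inr (a d)) (Sum.elim g k)).edgeSet + 4 * j) ≤
      homDensity (spGraph (Sum.elim (fun e => Sum.inl (s e)) fun d => Sum.inl (b d))
        (Sum.elim (fun e => Sum.inl (t e)) fun d => Sum.inr (a d)) (Sum.elim g k)) G *
        homDensity (SimpleGraph.cycleGraph 4) G ^ j := by
  classical
  refine main4 V C E D s t a b hst hinj hsurj m μ hμ hm g k hg hk hgl hkl B.card ?_ j hj X G
  rcases hB with ⟨e₀, h⟩ | ⟨d₀, h⟩
  · refine Or.inl ⟨e₀, ?_, fun v h1 h2 => hmB v fun h3 => ?_⟩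
    · have h1 : B = {s e₀, t e₀} := by
        ext v
        rw [h v, Finset.mem_insert, Finset.mem_singleton]
      rw [h1, Finset.card_pair (hst e₀)]
    · rcases (h v).1 h3 with h4 | h4
      · exact h1 h4
      · exact h2 h4
  · refine Or.inr ⟨d₀, ?_, fun v h1 => hmB v fun h3 => ?_⟩
    · have h1 : B = (univ : Finset {d // a d = a d₀}).image fun d => b d.1 := by
        ext v
        rw [h v, Finset.mem_image]
        constructor
        · rintro ⟨d, h2, h3⟩
          exact ⟨⟨d, h2⟩, mem_univ _, h3⟩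
        · rintro ⟨d, -, h3⟩
          exact ⟨d.1, d.2, h3⟩
      rw [h1, Finset.card_image_of_injective, Finset.card_univ, Nat.card_eq_fintype_card]
      intro d d' h2
      exact Subtype.ext (hinj d.1 d'.1 (d.2.trans d'.2.symm) h2)
    · obtain ⟨d, h4, h5⟩ := (h v).1 h3
      exact h1 d h4 h5

end Vale.Agent.P050.H692.Sub3
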