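import Vale.Agent.P050.H692.Sub3.F5

/-!
The theorem, short edges and short legs being counted.
-/

set_option linter.unusedSectionVars false

namespace Vale.Agent.P050.H692.Sub3

open Finset Vale.Agent.P050 Vale.Agent.P050.H936

theorem ee_card {E : Type} [Fintype E] (g : E → SP) (μ : ℕ) (p : E → Prop) :
    ee g μ p = Nat.card {e // (g e).len ≤ μ ∧ p e} := by
  classical
  unfold ee
  rw [Nat.card_eq_fintype_card, Fintype.card_subtype]

theorem qq_card {V C D : Type} [Fintype D] (a : D → C) (b : D → V) (m : V → ℕ) (μ : ℕ) (c : C) :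
    qq a b m μ c = Nat.card {d // a d = c ∧ 2 * m (b d) ≤ μ} - 1 := by
  classical
  unfold qq
  rw [Nat.card_eq_fintype_card, Fintype.card_subtype]

/-- every graph, with centres -/
theorem every5 (V C E D : Type) [Fintype V] [Fintype C] [Fintype E] [Fintype D] (s t : E → V)
    (a : D → C) (b : D → V) (hst : ∀ e, s e ≠ t e)
    (hinj : ∀ d d', a d = a d' → b d = b d' → d = d') (hsurj : Function.Surjective a)
    (m : V → ℕ) (μ : ℕ) (hμ : 2 ≤ μ) (hm : ∀ v, 1 ≤ m v) (g : E → SP) (k : D → SP)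
    (hg : ∀ e, (g e).Ok) (hk : ∀ d, (k d).Ok) (hgl : ∀ e, (g e).len = m (s e) + m (t e))
    (hkl : ∀ d, (k d).len = m (b d)) (j : ℕ)
    (hj : (∃ e₀, (∀ v, v = s e₀ ∨ v = t e₀ ∨ μ ≤ m v) ∧
        Fintype.card V ≤ ∑ e, (g e).gain μ + ∑ d, (k d).gain μ + j + 2 +
          Nat.card {e // (g e).len ≤ μ ∧ e ≠ e₀} +
          ∑ c, (Nat.card {d // a d = c ∧ 2 * m (b d) ≤ μ} - 1)) ∨
      ∃ c₀, (∀ v, (∃ d, a d = c₀ ∧ b d = v) ∨ μ ≤ m v) ∧
        Fintype.card V ≤ ∑ e, (g e).gain μ + ∑ d, (k d).gain μ + j +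
          Nat.card {d // a d = c₀} + Nat.card {e // (g e).len ≤ μ} +
          ∑ c, (Nat.card {d // c ≠ c₀ ∧ a d = c ∧ 2 * m (b d) ≤ μ} - 1))
    (X : Type) [Fintype X] [Nonempty X] (G : SimpleGraph X) :
    edgeDensity G ^ (Nat.card (spGraph (Sum.elim (fun e => Sum.inl (s e)) fun d => Sum.inl (b d))
        (Sum.elim (fun e => Sum.inl (t e)) fun d => Sum.inr (a d)) (Sum.elim g k)).edgeSet + 4 * j) ≤
      homDensity (spGraph (Sum.elim (fun e => Sum.inl (s e)) fun d => Sum.inl (b d))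
        (Sum.elim (fun e => Sum.inl (t e)) fun d => Sum.inr (a d)) (Sum.elim g k)) G *
        homDensity (SimpleGraph.cycleGraph 4) G ^ j := by
  classical
  rcases hj with ⟨e₀, h1, h2⟩ | ⟨c₀, h1, h2⟩
  · refine main5 V C E D s t a b hst hinj hsurj m μ hμ hm g k hg hk hgl hkl _
      (Or.inl ⟨e₀, rfl, fun v h3 h4 => ?_⟩) j ?_ X G
    · rcases h1 v with h5 | h5 | h5
      · exact absurd h5 h3
      · exact absurd h5 h4
      · exact h5
    · rw [ee_card]
      simp only [qq_card]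
      omega
  · obtain ⟨d₀, rfl⟩ := hsurj c₀
    refine main5 V C E D s t a b hst hinj hsurj m μ hμ hm g k hg hk hgl hkl _
      (Or.inr ⟨d₀, rfl, fun v h3 => ?_⟩) j ?_ X G
    · rcases h1 v with ⟨d, h5, h6⟩ | h5
      · exact absurd h6 (h3 d h5)
      · exact h5
    · have h3 : ee g μ (fun _ => True) = Nat.card {e // (g e).len ≤ μ} := by
        rw [ee_card]
        simp only [and_true]
      have h4 : ∀ c, c ≠ a d₀ → Nat.card {d // c ≠ a d₀ ∧ a d = c ∧ 2 * m (b d) ≤ μ} - 1 =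
          qq a b m μ c := by
        intro c hc
        rw [qq_card]
        simp only [ne_eq, hc, not_false_eq_true, true_and]
      have h5 : ∑ c, (Nat.card {d // c ≠ a d₀ ∧ a d = c ∧ 2 * m (b d) ≤ μ} - 1) =
          ∑ c, qq a b m μ c - qq a b m μ (a d₀) := by
        rw [← Finset.add_sum_erase univ _ (mem_univ (a d₀)),
          ← Finset.add_sum_erase univ (fun c => qq a b m μ c) (mem_univ (a d₀))]
        have h6 : Nat.card {d // a d₀ ≠ a d₀ ∧ a d = a d₀ ∧ 2 * m (b d) ≤ μ} = 0 := by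
          have h7 : IsEmpty {d // a d₀ ≠ a d₀ ∧ a d = a d₀ ∧ 2 * m (b d) ≤ μ} :=
            ⟨fun x => x.2.1 rfl⟩
          exact Nat.card_of_isEmpty
        rw [h6, Finset.sum_congr rfl fun c hc => h4 c (Finset.mem_erase.1 hc).1]
        show 0 - 1 + ∑ x ∈ univ.erase (a d₀), qq a b m μ x = qq a b m μ (a d₀) +
          ∑ x ∈ univ.erase (a d₀), qq a b m μ x - qq a b m μ (a d₀)
        omega
      rw [h3, ← h5]
      omega

end Vale.Agent.P050.H692.Sub3
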