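import Vale.Agent.P050.H936.Spec2

/-!
The rows: every edge of a multigraph is replaced by a series-parallel part; the vertices are of two
kinds, `V` (with lengths `m`) and centres `C`.
-/

set_option linter.unusedSectionVars false

namespace Vale.Agent.P050.H692.Sub3

open Finset Vale.Agent.P050.H148 Vale.Agent.P050.Cart Vale.Agent.P050.M18 Vale.Agent.P050.H546
  Vale.Agent.P050.H936

/-- the first ends of the edges `E` and of the legs `D` -/
def fst {V C E D : Type} (s : E → V) (b : D → V) : E ⊕ D → V ⊕ C :=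
  Sum.elim (fun e => Sum.inl (s e)) fun d => Sum.inl (b d)

/-- the second ends of the edges `E` and of the legs `D` -/
def snd {V C E D : Type} (t : E → V) (a : D → C) : E ⊕ D → V ⊕ C :=
  Sum.elim (fun e => Sum.inl (t e)) fun d => Sum.inr (a d)

/-- [E3] the entropy side -/
def Ent3Stmt : Prop := ∀ (V C E D U : Type) [Fintype V] [DecidableEq V] [Fintype C]
  [DecidableEq C] [Fintype E] [Fintype D] [DecidableEq D] [Fintype U] [DecidableEq U]
  (s t : E → V) (a : D → C) (b : D → V), (∀ e, s e ≠ t e) →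
  (∀ d d', a d = a d' → b d = b d' → d = d') → ∀ (m : V → ℕ) (μ : ℕ), (∀ v, μ ≤ m v) →
  ∀ (g : E → SP) (k : D → SP), (∀ e, (g e).Ok) → (∀ d, (k d).Ok) →
  (∀ e, (g e).len = m (s e) + m (t e)) → (∀ d, (k d).len = m (b d)) → ∀ r : ℕ,
  ((Nonempty E ∧ r = 2) ∨ ∃ d₀, r = Fintype.card {d // a d = a d₀}) →
  ∀ (A : U → U → ℝ) (Q : U × U → ℝ), Edge Q → (∀ x y, 0 ≤ A x y) →
  (∀ x y, Q (x, y) ≠ 0 → A x y = 1) →
  0 < ng (fst (C := C) s b) (snd t a) (Sum.elim g k) A ∧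
  (∑ e, ((g e).size : ℝ) + ∑ d, ((k d).size : ℝ)) * hQ Q -
    (∑ e, (2 * (g e).size - (g e).num : ℝ) + ∑ d, (2 * (k d).size - (k d).num : ℝ) -
      Fintype.card V - Fintype.card C) * aQ Q +
    (∑ e, ((g e).gain μ : ℝ) + ∑ d, ((k d).gain μ : ℝ) + r - Fintype.card V) *
      (2 * aQ Q - hh Q μ) ≤
      Real.log (ng (fst (C := C) s b) (snd t a) (Sum.elim g k) A)

/-- [F3] the theorem -/
def Final3Stmt : Prop := ∀ (V C E D : Type) [Fintype V] [Fintype C] [Fintype E] [Fintype D]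
  (s t : E → V) (a : D → C) (b : D → V), (∀ e, s e ≠ t e) →
  (∀ d d', a d = a d' → b d = b d' → d = d') → Function.Surjective a →
  ∀ (m : V → ℕ) (μ : ℕ), 2 ≤ μ → (∀ v, μ ≤ m v) →
  ∀ (g : E → SP) (k : D → SP), (∀ e, (g e).Ok) → (∀ d, (k d).Ok) →
  (∀ e, (g e).len = m (s e) + m (t e)) → (∀ d, (k d).len = m (b d)) → ∀ r : ℕ,
  ((Nonempty E ∧ r = 2) ∨ ∃ d₀, r = Nat.card {d // a d = a d₀}) → ∀ j : ℕ,
  Fintype.card V ≤ ∑ e, (g e).gain μ + ∑ d, (k d).gain μ + j + r →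
  ∀ (X : Type) [Fintype X] [Nonempty X] (G : SimpleGraph X),
  edgeDensity G ^ (Nat.card (spGraph (fst (C := C) s b) (snd t a) (Sum.elim g k)).edgeSet + 4 * j) ≤
    homDensity (spGraph (fst (C := C) s b) (snd t a) (Sum.elim g k)) G *
      homDensity (SimpleGraph.cycleGraph 4) G ^ j

end Vale.Agent.P050.H692.Sub3
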