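import Vale.Agent.P050.H692.Sub3.Spec4

/-!
The rows: every edge of a multigraph is replaced by a series-parallel part; the vertices are of two
kinds, `V` (with lengths `m`) and centres `C`. Short edges and short legs are counted, too.
-/

set_option linter.unusedSectionVars false

namespace Vale.Agent.P050.H692.Sub3

open Finset Vale.Agent.P050.H148 Vale.Agent.P050.Cart Vale.Agent.P050.M18 Vale.Agent.P050.H546
  Vale.Agent.P050.H936

open Classical in
/-- the number of short legs at a centre, minus one -/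
noncomputable def qq {V C D : Type} [Fintype D] (a : D → C) (b : D → V) (m : V → ℕ) (μ : ℕ)
    (c : C) : ℕ := (univ.filter fun d => a d = c ∧ 2 * m (b d) ≤ μ).card - 1

open Classical in
/-- the number of short edges other than the ones in `p` -/
noncomputable def ee {E : Type} [Fintype E] (g : E → SP) (μ : ℕ) (p : E → Prop) : ℕ :=
  (univ.filter fun e => (g e).len ≤ μ ∧ p e).card

open Classical in
/-- [E5] the entropy side -/
def Ent5Stmt : Prop := ∀ (V C E D U : Type) [Fintype V] [DecidableEq V] [Fintype C]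
  [DecidableEq C] [Fintype E] [Fintype D] [DecidableEq D] [Fintype U] [DecidableEq U]
  (s t : E → V) (a : D → C) (b : D → V), (∀ e, s e ≠ t e) →
  (∀ d d', a d = a d' → b d = b d' → d = d') → ∀ (m : V → ℕ) (μ : ℕ),
  ∀ (g : E → SP) (k : D → SP), (∀ e, (g e).Ok) → (∀ d, (k d).Ok) →
  (∀ e, (g e).len = m (s e) + m (t e)) → (∀ d, (k d).len = m (b d)) → ∀ r : ℕ,
  ((∃ e₀, r = 2 + ee g μ (fun e => e ≠ e₀) + ∑ c, qq a b m μ c ∧
      ∀ v, v ≠ s e₀ → v ≠ t e₀ → μ ≤ m v) ∨
    ∃ d₀, r = Fintype.card {d // a d = a d₀} + ee g μ (fun _ => True) +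
      ∑ c ∈ univ.filter (fun c => c ≠ a d₀), qq a b m μ c ∧
      ∀ v, (∀ d, a d = a d₀ → b d ≠ v) → μ ≤ m v) →
  ∀ (A : U → U → ℝ) (Q : U × U → ℝ), Edge Q → (∀ x y, 0 ≤ A x y) →
  (∀ x y, Q (x, y) ≠ 0 → A x y = 1) →
  0 < ng (fst (C := C) s b) (snd t a) (Sum.elim g k) A ∧
  (∑ e, ((g e).size : ℝ) + ∑ d, ((k d).size : ℝ)) * hQ Q -
    (∑ e, (2 * (g e).size - (g e).num : ℝ) + ∑ d, (2 * (k d).size - (k d).num : ℝ) -
      Fintype.card V - Fintype.card C) * aQ Q +
    (∑ e, ((g e).gain μ : ℝ) + ∑ d, ((k d).gain μ : ℝ) + r - Fintype.card V) *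
      (2 * aQ Q - hh Q μ) ≤
      Real.log (ng (fst (C := C) s b) (snd t a) (Sum.elim g k) A)

end Vale.Agent.P050.H692.Sub3
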